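import Vale.Agent.P167.N.H685.Q.Rec4

/-!
# P167, the range `0 < q < 1`, block Q-NSYM: the recursion and the theorem
-/

set_option autoImplicit false

namespace Vale.Agent.P167.N.H685.Q

open Finset Vale.Agent.P167 Vale.Agent.P167.FK Vale.Agent.P167.FKA Relation Filter Topology
open Vale.Agent.P167.H558 (StopSet Past)
open Vale.Agent.P167.H192 (ov ov_mem ov_notMem)
open Vale.Agent.P167.H318 (St TA TB Flat PO Lo HB J ex hit Visit CoConn Adj wt mem_RV RV_notMem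
  RV_path stopSet_RV past_X1 rv_cf rv_ok st_m RV_sub)
open Vale.Agent.P167.H365.NQ (SYMQ SymQE)
open Vale.Agent.P167.H632 (sq_inl)
open Vale.Agent.P167.H685.Q
open Vale.Agent.P167.H166Q (OArcW DArcW)

variable {Q : ℝ} {S : St} {ω ω' ξ : Cfg} {u w l' r : ℤ} {D : Finset (ℤ × ℤ)} {e : Ed} {k : ℕ}
  {ψ ψ' : ℤ → ℝ} {R : Cfg → Finset (ℤ × ℤ)}

/-- **General step**: the observable given a good entrance is `g` times the weight at the entrance. -/
theorem gen (hQ : 0 < Q) {Ce α Cs' : ℝ} {B : ℤ} (hCe : 0 < Ce) (hB : 1 ≤ B) (hE : EscA Q Ce α)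
    (hM : SmB Q Cs' B) (hZ : Zone S u w l') (hk : 1 ≤ k) (hBk : B * k ≤ 4 * l')
    (hr : 32 * l' ≤ r) {Z : ℤ → Prop} (hZ1 : ∀ x, Z x → |x - u| + r < w)
    (hψ : ∀ x, |ψ x| ≤ 1) (hs : ∀ x, ψ x ≠ 0 → u - w + B * k ≤ x ∧ x ≤ u + w - B * k)
    {lam : ℝ} (hlam : 0 < lam) (hm : ∀ x y, Z x → |y - x| ≤ r / 2 → |ψ y - ψ x| ≤ lam)
    {Y : Cfg → ℝ} (hY : PastS S (RC S u w l' r) Y) (hY0 : ∀ ω, 0 ≤ Y ω ∧ Y ω ≤ 1) {g o : ℝ}
    (ho : ∀ (S1 : St) (x : ℤ), TC S1 l' x r → |Dv Q S1 x (r / 2) k - g| ≤ o) :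
    |EQ Q S (fun ω => Y ω * iz (Lo u w (4 * l')) Z (S.X1 (Lo u w (4 * l')) ω) *
      (J S.D S.e0 ψ k ω - g * ψ (hdv (S.X1 (Lo u w (4 * l')) ω)).1))| ≤
    o * EQ Q S (fun ω => Y ω * iz (Lo u w (4 * l')) Z (S.X1 (Lo u w (4 * l')) ω)) +
      (Cs' + 1) / 2 * k * (lam + Real.sqrt (Ce * (((4 * l' - 1 : ℤ) : ℝ) / ((r / 2 - 1 : ℤ) : ℝ)) ^ α)) := by
  have hl1 := hZ.l1
  have hkB : (k : ℤ) ≤ B * k := by
    have : (0 : ℤ) ≤ k := Int.natCast_nonneg k
    nlinarith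
  have hk1 : (1 : ℤ) ≤ k := by exact_mod_cast hk
  set A := Lo u w (4 * l') with hA
  set x' : Cfg → ℤ := fun ω => (hdv (S.X1 A ω)).1 with hx'
  set I : Cfg → ℝ := fun ω => iz A Z (S.X1 A ω) with hI
  have hI0 : ∀ ω, 0 ≤ I ω := fun ω => iz_nonneg _ _ _
  have hI1 : ∀ ω, I ω ≤ 1 := fun ω => iz_le_one _ _ _
  have hIne : ∀ ω, I ω ≠ 0 → hdv (S.X1 A ω) ∈ A ∧ Z (x' ω) := by
    intro ω h
    by_contra hcon
    exact h (if_neg hcon)
  -- decomposition
  have e1 : EQ Q S (fun ω => Y ω * I ω * (J S.D S.e0 ψ k ω - g * ψ (x' ω))) =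
      EQ Q S (fun ω => (Y ω * (I ω * ψ (x' ω))) * (J S.D S.e0 (win (x' ω) (r / 2)) k ω - g)) +
      EQ Q S (fun ω => I ω * (Y ω * (J S.D S.e0 ψ k ω -
        ψ (x' ω) * J S.D S.e0 (win (x' ω) (r / 2)) k ω))) := by
    rw [← EQ_add]
    refine EQ_congr fun ω _ => ?_
    ring
  rw [e1]
  refine (abs_add_le _ _).trans (add_le_add ?_ ?_)
  · -- the near part
    have hP : PastS S (RC S u w l' r) (fun ω => Y ω * (I ω * ψ (x' ω))) := by
      refine hY.mul ?_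
      exact pastS_X1 hZ.st A (fun ω => RV_sub_RC) fun e => iz A Z e * ψ (hdv e).1
    have e2 := EQ_stop hQ hZ.gq.good (stop_RC hZ.st u w l' r) (RC_cf u w l' r) hP
      (fun ω => J S.D S.e0 (win (x' ω) (r / 2)) k ω - g)
    rw [e2]
    refine (EQ_abs hQ _).trans ?_
    rw [← EQ_mul]
    refine EQ_mono hQ fun ω hω => ?_
    have hsub : EQ Q (S.rv (RC S u w l' r ω) ω)
        (fun ω => J S.D S.e0 (win (x' ω) (r / 2)) k ω - g) =
        Dv Q (S.rv (RC S u w l' r ω) ω) (x' ω) (r / 2) k - g := by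
      have h1 := EQ_past (R := RC S u w l' r) (Q := Q) hQ hω (Z := x') (fun ω' _ h' => by
        show (hdv (S.X1 A ω')).1 = (hdv (S.X1 A ω)).1
        rw [X1_of_RC hZ.st h']) (fun x ω' => J S.D S.e0 (win x (r / 2)) k ω' - g)
      rw [h1, EQ_sub, EQ_const hQ]
      rfl
    rw [hsub]
    by_cases h0 : I ω = 0
    · have h0' : iz A Z (S.X1 A ω) = 0 := h0
      rw [h0, h0']
      simp
    · obtain ⟨h1, h2⟩ := hIne ω h0
      have hTC := hZ.tc (ω := ω) (r := r) (by omega) h1 (hZ1 _ h2)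
      have h3 := ho _ _ hTC
      rw [abs_mul, abs_mul, abs_mul, abs_of_nonneg (hY0 ω).1, abs_of_nonneg (hI0 ω)]
      have h4 : |ψ (x' ω)| * |Dv Q (S.rv (RC S u w l' r ω) ω) (x' ω) (r / 2) k - g| ≤ o := by
        calc _ ≤ 1 * |Dv Q (S.rv (RC S u w l' r ω) ω) (x' ω) (r / 2) k - g| :=
              mul_le_mul_of_nonneg_right (hψ _) (abs_nonneg _)
          _ ≤ o := by rw [one_mul]; exact h3
      calc Y ω * (I ω * |ψ (x' ω)|) * |Dv Q (S.rv (RC S u w l' r ω) ω) (x' ω) (r / 2) k - g|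
          = (Y ω * I ω) * (|ψ (x' ω)| *
            |Dv Q (S.rv (RC S u w l' r ω) ω) (x' ω) (r / 2) k - g|) := by ring
        _ ≤ (Y ω * I ω) * o := mul_le_mul_of_nonneg_left h4 (mul_nonneg (hY0 ω).1 (hI0 ω))
        _ = _ := by ring
  · -- the errors
    set K := (Cs' + 1) / 2 * k * (lam + Real.sqrt (Ce *
      (((4 * l' - 1 : ℤ) : ℝ) / ((r / 2 - 1 : ℤ) : ℝ)) ^ α)) with hK
    have h1 : |EQ Q S (fun ω => I ω * (Y ω * (J S.D S.e0 ψ k ω -
        ψ (x' ω) * J S.D S.e0 (win (x' ω) (r / 2)) k ω)))| ≤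
        EQ Q S (fun ω => I ω * |J S.D S.e0 ψ k ω -
        ψ (x' ω) * J S.D S.e0 (win (x' ω) (r / 2)) k ω|) := by
      refine (EQ_abs hQ _).trans (EQ_mono hQ fun ω _ => ?_)
      rw [abs_mul, abs_mul, abs_of_nonneg (hI0 ω), abs_of_nonneg (hY0 ω).1]
      refine mul_le_mul_of_nonneg_left ?_ (hI0 ω)
      calc _ ≤ 1 * |J S.D S.e0 ψ k ω - ψ (x' ω) * J S.D S.e0 (win (x' ω) (r / 2)) k ω| :=
            mul_le_mul_of_nonneg_right (hY0 ω).2 (abs_nonneg _)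
        _ = _ := one_mul _
    refine h1.trans ?_
    have e2 := EQ_stop hQ hZ.gq.good (stopSet_RV hZ.st A) (RV_cf A)
      (pastS_X1 hZ.st A (fun ω => Finset.Subset.refl _) fun e => iz A Z e)
      (fun ω => |J S.D S.e0 ψ k ω - ψ (x' ω) * J S.D S.e0 (win (x' ω) (r / 2)) k ω|)
    refine e2.le.trans ?_
    have hpt : ∀ ω, Cs S ω → iz A Z (S.X1 A ω) * EQ Q (S.rv (S.RV A ω) ω)
        (fun ω => |J S.D S.e0 ψ k ω - ψ (x' ω) * J S.D S.e0 (win (x' ω) (r / 2)) k ω|) ≤ K := by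
      intro ω hω
      have hKn : 0 ≤ K := by
        have h2 := abs_int (ψ := fun _ => 0) hQ hM hZ hk hBk hlam (fun x => by
          rw [abs_zero]; exact hlam.le) (fun x hx => absurd rfl hx) ω
        have h3 : 0 ≤ (Cs' + 1) / 2 * k * lam := le_trans (EQ_nonneg hQ fun _ _ => abs_nonneg _) h2
        have h4 : 0 ≤ (Cs' + 1) / 2 * k := by
          by_contra hcon
          have := mul_neg_of_neg_of_pos (not_le.1 hcon) hlam
          linarith
        exact mul_nonneg h4 (add_nonneg hlam.le (Real.sqrt_nonneg _))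
      by_cases h0 : iz A Z (S.X1 A ω) = 0
      · rw [h0, zero_mul]
        exact hKn
      obtain ⟨t1, t2⟩ := hIne ω h0
      have hxw := hZ1 _ t2
      have hxw' := abs_lt.1 (show |x' ω - u| < w - r by omega)
      have h2 := EQ_past (R := S.RV A) (Q := Q) hQ hω (Z := x') (fun ω' _ h' => by
        show (hdv (S.X1 A ω')).1 = (hdv (S.X1 A ω)).1
        rw [past_X1 hZ.st A ω ω' h']) (fun x ω' => |J S.D S.e0 ψ k ω' -
          ψ x * J S.D S.e0 (win x (r / 2)) k ω'|)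
      rw [h2]
      have h3 : EQ Q (S.rv (S.RV A ω) ω) (fun ω' => |J S.D S.e0 ψ k ω' -
          ψ (x' ω) * J S.D S.e0 (win (x' ω) (r / 2)) k ω'|) ≤
          EQ Q (S.rv (S.RV A ω) ω) (fun ξ =>
            |J S.D S.e0 (fun y => (ψ y - ψ (x' ω)) * win (x' ω) (r / 2) y) k ξ|) +
          EQ Q (S.rv (S.RV A ω) ω) (fun ξ =>
            |J S.D S.e0 (fun y => ψ y * (1 - win (x' ω) (r / 2) y)) k ξ|) := by
        rw [← EQ_add]
        refine EQ_mono hQ fun ξ _ => ?_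
        rw [J_dec]
        exact abs_add_le _ _
      have hwin1 : ∀ y, win (x' ω) (r / 2) y ≠ 0 → |y - x' ω| ≤ r / 2 := by
        intro y hy
        unfold win at hy
        by_contra hcon
        apply hy
        rw [if_neg]
        rintro ⟨h4, h5⟩
        exact hcon (abs_le.2 ⟨by omega, by omega⟩)
      have hwin2 : ∀ y, |y - x' ω| ≤ r / 2 → win (x' ω) (r / 2) y = 1 := by
        intro y hy
        have h4 := abs_le.1 hy
        exact if_pos ⟨by omega, by omega⟩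
      have hwin3 : ∀ y, 0 ≤ win (x' ω) (r / 2) y ∧ win (x' ω) (r / 2) y ≤ 1 := by
        intro y
        unfold win
        split_ifs <;> norm_num
      have h4 := abs_int hQ hM hZ hk hBk hlam
        (ψ := fun y => (ψ y - ψ (x' ω)) * win (x' ω) (r / 2) y) (fun y => by
          by_cases hy : win (x' ω) (r / 2) y = 0
          · rw [hy, mul_zero, abs_zero]
            exact hlam.le
          · rw [hwin2 y (hwin1 y hy), mul_one]
            exact hm _ _ t2 (hwin1 y hy))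
        (fun y hy => by
          have h5 := abs_le.1 (hwin1 y fun h => hy (by rw [h, mul_zero]))
          exact ⟨by omega, by omega⟩) ω
      have h5 := far_int hQ hCe hB hE hM hZ hk hBk (b := x' ω) (r0 := 4 * l' - 1) (R := r / 2 - 1)
        (ψ := fun y => ψ y * (1 - win (x' ω) (r / 2) y)) (by omega) (by omega) (by omega)
        (fun v hv => ⟨by have := hv.1; omega, by have := hv.2.1; omega, hv.2.2.1,
          by have := hv.2.2.2; omega⟩)
        (fun y => by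
          rw [abs_mul, abs_of_nonneg (by have := (hwin3 y).2; linarith : 0 ≤ 1 - win (x' ω) (r / 2) y)]
          have h6 := hψ y
          have h7 := (hwin3 y).1
          have h8 := (hwin3 y).2
          have h9 := abs_nonneg (ψ y)
          nlinarith)
        (fun y hy => hs y fun h => hy (by rw [h, zero_mul]))
        (fun y h6 h7 => by rw [hwin2 y (abs_le.2 ⟨by omega, by omega⟩), sub_self, mul_zero])
        hω ⟨by show x' ω - (4 * l' - 1) ≤ x' ω; omega, by show x' ω ≤ x' ω + (4 * l' - 1); omega,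
          t1.2.2.1, by
            have h9 : (hdv (S.X1 A ω)).2 < 4 * l' := t1.2.2.2
            show (hdv (S.X1 A ω)).2 ≤ 4 * l' - 1
            omega⟩
      have h6 : EQ Q (S.rv (S.RV A ω) ω) (fun ω' => |J S.D S.e0 ψ k ω' -
          ψ (x' ω) * J S.D S.e0 (win (x' ω) (r / 2)) k ω'|) ≤ K := by
        refine h3.trans ((add_le_add h4 h5).trans (le_of_eq ?_))
        rw [hK]
        ring
      calc _ ≤ 1 * EQ Q (S.rv (S.RV A ω) ω) (fun ω' => |J S.D S.e0 ψ k ω' -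
          ψ (x' ω) * J S.D S.e0 (win (x' ω) (r / 2)) k ω'|) :=
            mul_le_mul_of_nonneg_right (hI1 ω) (EQ_nonneg hQ fun _ _ => abs_nonneg _)
        _ ≤ K := by rw [one_mul]; exact h6
    calc _ ≤ EQ Q S (fun _ => K) := EQ_mono hQ hpt
      _ = K := EQ_const hQ K

/-- without a good entrance an arc is missing -/
theorem bad_arc (hZ : Zone S u w l') (hω : Cs S ω) {b r0 R : ℤ} (h1 : 1 ≤ r0) (h2 : r0 ≤ R)
    (hb : |b - u| + R + 1 ≤ w) (ht : hdv S.tip ∈ HB b r0)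
    (h : ¬ (hdv (S.X1 (Lo u w (4 * l')) ω) ∈ Lo u w (4 * l') ∧
      |(hdv (S.X1 (Lo u w (4 * l')) ω)).1 - b| ≤ R)) :
    ω ∈ NoArc S b r0 R := by
  have hl1 := hZ.l1
  set A := Lo u w (4 * l') with hA
  have hb' := abs_le.1 (show |b - u| ≤ w - R - 1 by omega)
  have hX : S.X1 A ω = H318.st S.e0 ω (hit S.D S.e0 A ω) := by
    show H318.st S.e0 (S.cf ω) (hit S.D S.e0 A (S.cf ω)) = _
    rw [hω.cf]
  obtain ⟨g1, g2, g3, g4⟩ := hZ.hb (b := b) (R := R) (by omega)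
  by_contra hcon
  obtain ⟨k1, ⟨y, k2, k3⟩, k4⟩ := conf (u := u) (w := w) (h := 4 * l') hZ.toOk h1 h2 g1 g2 g3 ht
    hZ.fr (fun x a1 a2 => hZ.flat.not x a1 a2) hω (not_not.1 hcon)
  have hy := abs_le.1 k2
  have hyA : ((y, 0) : ℤ × ℤ) ∈ A :=
    ⟨by dsimp only; omega, by dsimp only; omega, le_rfl, by dsimp only; omega⟩
  have hex := H318.Bs.ex_spec hZ.st ω
  obtain ⟨N, hN⟩ : ∃ N, ex S.D S.e0 ω = N + 1 := ⟨ex S.D S.e0 ω - 1, by omega⟩
  rw [k3] at hex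
  have h5 : hdv (H318.st S.e0 ω N) = (y, 0) := by
    rw [hN] at k3
    rw [← H318.Bs.tlv_st, k3]
    rcases H632.sq_inr (y, -1) with h' | h'
    · rw [h'.2.1]; simp
    · rw [h'.1] at hex
      exact absurd (g2 _ ⟨by dsimp only; omega, by dsimp only; omega, by simp,
        by dsimp only; omega⟩) hex
  have h6 : hit S.D S.e0 A ω ≤ N := H318.Bs.hit_le (Or.inl (by rw [h5]; exact hyA))
  have h7 : hdv (H318.st S.e0 ω (hit S.D S.e0 A ω)) ∈ A :=
    H318.Bs.hit_mem hZ.st (by omega)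
  apply h
  rw [hX]
  refine ⟨h7, ?_⟩
  have h8 := k4 (hit S.D S.e0 A ω) (by omega)
  by_contra hne
  apply h8
  refine ⟨h7, ?_⟩
  by_contra hcon2
  push Not at hcon2
  exact hne (abs_le.2 ⟨by omega, by omega⟩)

/-- **One step of the recursion.** -/
theorem step (hQ : 0 < Q) {Ce α Cs' : ℝ} {B : ℤ} (hCe : 0 < Ce) (hα : 0 < α) (hCs : 0 < Cs')
    (hB : 1 ≤ B) (hE : EscA Q Ce α) (hM : SmB Q Cs' B) {M l' : ℤ} (hM4 : 32 ≤ M) (hk : 1 ≤ k)
    (hBk : B * k ≤ 4 * l') {C1 α1 a b c : ℝ} (hc : c ≤ a) (hC1 : 0 ≤ C1)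
    (hSucc : ∀ S : St, TC S (M ^ 2 * l') 1 (M ^ 3 * l') → ∃ s : Cfg → ℝ, (∀ ω, 0 ≤ s ω ∧ s ω ≤ 1) ∧
      PastS S (RC S 1 (M ^ 3 * l') l' (M * l')) s ∧ EQ Q S s = a ∧
      |EQ Q S (fun ω => s ω * J S.D S.e0 (win 1 (M ^ 3 * l' / 2)) k ω) - b| ≤
        C1 * (M : ℝ) ^ (-α1) * k)
    {g o : ℝ} (ho0 : 0 ≤ o)
    (ho : ∀ S1 : St, TC S1 l' 1 (M * l') → |Dv Q S1 1 (M * l' / 2) k - g| ≤ o) (S : St)
    (hS : TC S (M ^ 2 * l') 1 (M ^ 3 * l')) :
    |Dv Q S 1 (M ^ 3 * l' / 2) k - (b + (1 - a) * g)| ≤ (1 - c) * o +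
      (C1 * (M : ℝ) ^ (-α1) * k + 3 * ((Cs' + 1) / 2 * k) * Real.sqrt (Ce * (32 / (M : ℝ)) ^ α) +
        |g| * (Ce * (32 / (M : ℝ)) ^ α)) := by
  have hk1 : (1 : ℤ) ≤ k := by exact_mod_cast hk
  have hkB : (k : ℤ) ≤ B * k := by nlinarith
  have hl1 : 1 ≤ l' := by omega
  have hMR : (0 : ℝ) < M := by exact_mod_cast (by omega : 0 < M)
  set P := Ce * (32 / (M : ℝ)) ^ α with hP
  have hP0 : 0 < P := by positivity
  have hsP : 0 < Real.sqrt P := Real.sqrt_pos.2 hP0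
  set l := M ^ 2 * l' with hl
  set ρ := M ^ 3 * l' with hρ
  set r := M * l' with hr
  have hlM : l = M * r := by rw [hl, hr]; ring
  have hρM : ρ = M * l := by rw [hρ, hl]; ring
  have hr32 : 32 * l' ≤ r := by rw [hr]; nlinarith
  have hl32 : 32 * r ≤ l := by rw [hlM]; nlinarith
  have hρ32 : 32 * l ≤ ρ := by rw [hρM]; nlinarith
  have hZ : Zone S 1 ρ l' := hS.zone hl1 (by omega) (by omega)
  set A := Lo 1 ρ (4 * l') with hA
  obtain ⟨s, hs01, hsP', hsa, hsb⟩ := hSucc S hS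
  -- the weights
  have hψ1 : ∀ x, |win 1 (ρ / 2) x| ≤ 1 := by
    intro x
    unfold win
    split_ifs <;> norm_num
  have hψs : ∀ x, win 1 (ρ / 2) x ≠ 0 → 1 - ρ + B * k ≤ x ∧ x ≤ 1 + ρ - B * k := by
    intro x hx
    unfold win at hx
    have h1 : 1 - ρ / 2 ≤ x ∧ x ≤ 1 + ρ / 2 := by
      by_contra hcon
      exact hx (if_neg hcon)
    omega
  have hψe : ∀ x, |x - 1| ≤ ρ / 2 → win 1 (ρ / 2) x = 1 := by
    intro x hx
    have h1 := abs_le.1 hx
    exact if_pos ⟨by omega, by omega⟩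
  -- the new states
  have ho' : ∀ (S1 : St) (x : ℤ), TC S1 l' x r → |Dv Q S1 x (r / 2) k - g| ≤ o := by
    intro S1 x h1
    obtain ⟨S2, h2, h3⟩ := exists_tr hQ h1 (r / 2) k
    rw [← h3]
    exact ho S2 h2
  have hgen := gen (Y := fun ω => 1 - s ω) (Z := fun x => |x - 1| ≤ ρ / 4) (ψ := win 1 (ρ / 2))
    (lam := Real.sqrt P) hQ hCe hB hE hM hZ hk hBk hr32
    (fun x hx => by omega) hψ1 hψs hsP
    (fun x y hx hy => by
      have h1 := abs_le.1 hy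
      have h2 := abs_le.1 hx
      rw [hψe x (abs_le.2 ⟨by omega, by omega⟩), hψe y (abs_le.2 ⟨by omega, by omega⟩), sub_self,
        abs_zero]
      exact hsP.le)
    (fun ω ω' h1 h2 h3 => by
      show 1 - s ω' = 1 - s ω
      rw [hsP' ω ω' h1 h2 h3])
    (fun ω => ⟨by have := (hs01 ω).2; linarith, by have := (hs01 ω).1; linarith⟩) ho'
  rw [← hA] at hgen
  -- the radius
  have hp1 : Ce * (((4 * l' - 1 : ℤ) : ℝ) / ((r / 2 - 1 : ℤ) : ℝ)) ^ α ≤ P := by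
    refine mul_le_mul_of_nonneg_left (ratio_le (by omega) (by omega) (by omega) ?_ hα) hCe.le
    have h1 : (4 * l' - 1) * M = 4 * r - M := by rw [hr]; ring
    rw [h1]
    omega
  have hp2 : Ce * (((4 * l - 1 : ℤ) : ℝ) / ((ρ / 4 : ℤ) : ℝ)) ^ α ≤ P := by
    refine mul_le_mul_of_nonneg_left (ratio_le (by omega) (by omega) (by omega) ?_ hα) hCe.le
    have h1 : (4 * l - 1) * M = 4 * ρ - M := by rw [hρM]; ring
    rw [h1]
    omega
  set K := (Cs' + 1) / 2 * (k : ℝ) with hK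
  have hK0 : 0 ≤ K := by positivity
  set I : Cfg → ℝ := fun ω => iz A (fun x => |x - 1| ≤ ρ / 4) (S.X1 A ω) with hI
  have hI0 : ∀ ω, 0 ≤ I ω := fun ω => iz_nonneg _ _ _
  have hI1 : ∀ ω, I ω ≤ 1 := fun ω => iz_le_one _ _ _
  set V : Set Cfg := NoArc S 1 (4 * l - 1) (ρ / 4) with hV
  -- the first part
  have b1 : |EQ Q S (fun ω => (1 - s ω) * I ω * (J S.D S.e0 (win 1 (ρ / 2)) k ω - g))| ≤
      (1 - c) * o + K * (2 * Real.sqrt P) := by
    have e1 : EQ Q S (fun ω => (1 - s ω) * I ω * (J S.D S.e0 (win 1 (ρ / 2)) k ω - g)) =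
        EQ Q S (fun ω => (1 - s ω) * I ω * (J S.D S.e0 (win 1 (ρ / 2)) k ω -
          g * win 1 (ρ / 2) (hdv (S.X1 A ω)).1)) := by
      refine EQ_congr fun ω _ => ?_
      by_cases h0 : I ω = 0
      · rw [h0]
        ring
      · have h1 : |(hdv (S.X1 A ω)).1 - 1| ≤ ρ / 4 := by
          by_contra hcon
          exact h0 (if_neg fun h => hcon h.2)
        rw [hψe _ (by omega), mul_one]
    rw [e1]
    refine hgen.trans ?_
    have h1 : EQ Q S (fun ω => (1 - s ω) * iz A (fun x => |x - 1| ≤ ρ / 4) (S.X1 A ω)) ≤ 1 - c := by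
      calc _ ≤ EQ Q S (fun ω => 1 - s ω) := EQ_mono hQ fun ω _ => by
            have h2 : 0 ≤ 1 - s ω := by have := (hs01 ω).2; linarith
            calc _ ≤ (1 - s ω) * 1 := mul_le_mul_of_nonneg_left (hI1 ω) h2
              _ = _ := mul_one _
        _ = 1 - a := by rw [EQ_sub, EQ_const hQ, hsa]
        _ ≤ 1 - c := by linarith
    have h2 := mul_le_mul_of_nonneg_left h1 ho0
    have h3 : K * (Real.sqrt P + Real.sqrt (Ce * (((4 * l' - 1 : ℤ) : ℝ) /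
        ((r / 2 - 1 : ℤ) : ℝ)) ^ α)) ≤ K * (2 * Real.sqrt P) := by
      refine mul_le_mul_of_nonneg_left ?_ hK0
      have := Real.sqrt_le_sqrt hp1
      linarith
    calc _ ≤ o * (1 - c) + K * (2 * Real.sqrt P) := add_le_add h2 h3
      _ = _ := by ring
  -- the second part
  have htip := hS.hdv_tip
  have hbad : ∀ ω, Cs S ω → 1 - I ω ≤ V.indicator 1 ω := by
    intro ω hω
    by_cases h : hdv (S.X1 A ω) ∈ A ∧ |(hdv (S.X1 A ω)).1 - 1| ≤ ρ / 4
    · have h1 : I ω = 1 := if_pos h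
      rw [h1, sub_self]
      exact ind_nonneg _ _
    · have h1 : ω ∈ V := bad_arc hZ hω (b := 1) (r0 := 4 * l - 1) (R := ρ / 4) (by omega) (by omega)
        (by simp; omega) (by rw [htip]; exact ⟨by dsimp only; omega, by dsimp only; omega,
          by dsimp only; omega, by dsimp only; omega⟩) h
      rw [Set.indicator_of_mem h1]
      have := hI0 ω
      simp only [Pi.one_apply]
      linarith
  obtain ⟨g1, g2, g3, g4⟩ := hZ.hb (b := 1) (R := ρ / 4) (by simp; omega)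
  have hesc : PQ Q S V ≤ P := by
    refine le_trans (hE S 1 (4 * l - 1) (ρ / 4) (by omega) (by omega) hS.toOk g1 g2 g3
      (fun v hv => hS.fresh v ⟨by have := hv.1; omega, by have := hv.2.1; omega, hv.2.2.1,
        by have := hv.2.2.2; omega⟩) g4 (by
          rw [htip]
          exact ⟨by dsimp only; omega, by dsimp only; omega, by dsimp only; omega,
            by dsimp only; omega⟩)) hp2
  have hsm := hM S 1 ρ (4 * l) k (win 1 (ρ / 2)) hk (by omega) hS.toTA hS.gq hψ1 hψs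
  have hcs := cs_bound hQ S (X := fun ω => J S.D S.e0 (win 1 (ρ / 2)) k ω) (κ := (k : ℝ))
    (by exact_mod_cast hk) hP0 hsm hesc
  have b2 : |EQ Q S (fun ω => (1 - s ω) * (1 - I ω) * (J S.D S.e0 (win 1 (ρ / 2)) k ω - g))| ≤
      K * Real.sqrt P + |g| * P := by
    refine (EQ_abs hQ _).trans ?_
    have h1 : EQ Q S (fun ω => |(1 - s ω) * (1 - I ω) * (J S.D S.e0 (win 1 (ρ / 2)) k ω - g)|) ≤
        EQ Q S (fun ω => |J S.D S.e0 (win 1 (ρ / 2)) k ω| * V.indicator 1 ω +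
          |g| * V.indicator 1 ω) := by
      refine EQ_mono hQ fun ω hω => ?_
      have h2 : 0 ≤ 1 - s ω := by have := (hs01 ω).2; linarith
      have h3 : 1 - s ω ≤ 1 := by have := (hs01 ω).1; linarith
      have h4 : 0 ≤ 1 - I ω := by have := hI1 ω; linarith
      rw [abs_mul, abs_mul, abs_of_nonneg h2, abs_of_nonneg h4]
      have h5 : (1 - s ω) * (1 - I ω) ≤ V.indicator 1 ω := by
        calc _ ≤ 1 * (1 - I ω) := mul_le_mul_of_nonneg_right h3 h4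
          _ = 1 - I ω := one_mul _
          _ ≤ _ := hbad ω hω
      have h6 : |J S.D S.e0 (win 1 (ρ / 2)) k ω - g| ≤
          |J S.D S.e0 (win 1 (ρ / 2)) k ω| + |g| := abs_sub _ _
      calc _ ≤ V.indicator 1 ω * (|J S.D S.e0 (win 1 (ρ / 2)) k ω| + |g|) :=
            mul_le_mul h5 h6 (abs_nonneg _) (ind_nonneg _ _)
        _ = _ := by ring
    refine h1.trans ?_
    rw [EQ_add, EQ_mul]
    exact add_le_add hcs (mul_le_mul_of_nonneg_left hesc (abs_nonneg _))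
  -- the sum
  have e1 : Dv Q S 1 (ρ / 2) k - (b + (1 - a) * g) =
      (EQ Q S (fun ω => s ω * J S.D S.e0 (win 1 (ρ / 2)) k ω) - b) +
      EQ Q S (fun ω => (1 - s ω) * I ω * (J S.D S.e0 (win 1 (ρ / 2)) k ω - g)) +
      EQ Q S (fun ω => (1 - s ω) * (1 - I ω) * (J S.D S.e0 (win 1 (ρ / 2)) k ω - g)) := by
    have h1 : Dv Q S 1 (ρ / 2) k =
        EQ Q S (fun ω => s ω * J S.D S.e0 (win 1 (ρ / 2)) k ω) +
        EQ Q S (fun ω => (1 - s ω) * I ω * (J S.D S.e0 (win 1 (ρ / 2)) k ω - g)) +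
        EQ Q S (fun ω => (1 - s ω) * (1 - I ω) * (J S.D S.e0 (win 1 (ρ / 2)) k ω - g)) +
        EQ Q S (fun ω => g * (1 - s ω)) := by
      rw [← EQ_add, ← EQ_add, ← EQ_add]
      refine EQ_congr fun ω _ => ?_
      ring
    have h2 : EQ Q S (fun ω => g * (1 - s ω)) = (1 - a) * g := by
      rw [EQ_mul, EQ_sub, EQ_const hQ, hsa]
      ring
    rw [h1, h2]
    ring
  rw [e1]
  refine (abs_add_le _ _).trans ((add_le_add (abs_add_le _ _) le_rfl).trans ?_)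
  calc _ ≤ C1 * (M : ℝ) ^ (-α1) * k + ((1 - c) * o + K * (2 * Real.sqrt P)) +
        (K * Real.sqrt P + |g| * P) := add_le_add (add_le_add hsb b1) b2
    _ = _ := by ring

/-- **the recursion** -/
theorem iter (hQ : 0 < Q) {Ce α Cs' : ℝ} {B : ℤ} (hCe : 0 < Ce) (hα : 0 < α) (hCs : 0 < Cs')
    (hB : 1 ≤ B) (hE : EscA Q Ce α) (hM : SmB Q Cs' B) {C1 α1 c : ℝ} {L : ℤ} (hc0 : 0 < c)
    (hc1 : c ≤ 1) (hC1 : 0 ≤ C1) (hL : 1 ≤ L)
    (hSucc : ∀ (M l' : ℤ) (k : ℕ), L ≤ M → 1 ≤ k → L * k ≤ l' → ∃ a b : ℝ, c ≤ a ∧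
      ∀ S : St, TC S (M ^ 2 * l') 1 (M ^ 3 * l') → ∃ s : Cfg → ℝ, (∀ ω, 0 ≤ s ω ∧ s ω ≤ 1) ∧
      PastS S (RC S 1 (M ^ 3 * l') l' (M * l')) s ∧ EQ Q S s = a ∧
      |EQ Q S (fun ω => s ω * J S.D S.e0 (win 1 (M ^ 3 * l' / 2)) k ω) - b| ≤
        C1 * (M : ℝ) ^ (-α1) * k)
    {M : ℤ} (hM4 : 32 ≤ M) (hLM : L ≤ M)
    (hEr : Er C1 α1 ((Cs' + 1) / 2) Ce α M ≤ c * ((Cs' + 1) / 2)) (k : ℕ) (hk : 1 ≤ k) (l0 : ℤ)
    (hL0 : L * k ≤ l0) (hB0 : B * k ≤ 4 * l0) (n : ℕ) :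
    ∃ g : ℝ, |g| ≤ 3 * ((Cs' + 1) / 2) * k ∧
      ∀ S : St, TC S (M ^ (2 * n) * l0) 1 (M * (M ^ (2 * n) * l0)) →
        |Dv Q S 1 (M * (M ^ (2 * n) * l0) / 2) k - g| ≤
          ((1 - c) ^ n * ((Cs' + 1) / 2) + Er C1 α1 ((Cs' + 1) / 2) Ce α M / c) * k := by
  have hk1 : (1 : ℤ) ≤ k := by exact_mod_cast hk
  have hkR : (0 : ℝ) ≤ k := by positivity
  have hl0 : 1 ≤ l0 := by nlinarith
  set K0 := (Cs' + 1) / 2 with hK0
  have hK0p : 0 < K0 := by positivity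
  have hMR : (0 : ℝ) < M := by exact_mod_cast (by omega : 0 < M)
  set E := Er C1 α1 K0 Ce α M with hEdef
  have hE0 : 0 ≤ E := by
    rw [hEdef]
    unfold Er
    positivity
  have hEc : E / c ≤ K0 := by
    rw [div_le_iff₀ hc0]
    linarith
  have hEc0 : 0 ≤ E / c := div_nonneg hE0 hc0.le
  have hcn : ∀ n : ℕ, 0 ≤ (1 - c) ^ n ∧ (1 - c) ^ n ≤ 1 := fun n =>
    ⟨pow_nonneg (by linarith) n, pow_le_one₀ (by linarith) (by linarith)⟩
  have hpow : ∀ n : ℕ, 1 ≤ M ^ (2 * n) := fun n => one_le_pow₀ (by omega)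
  have hgrow : ∀ n : ℕ, l0 ≤ M ^ (2 * n) * l0 := fun n => by nlinarith [hpow n]
  induction n with
  | zero =>
    refine ⟨0, by rw [abs_zero]; positivity, fun S hS => ?_⟩
    rw [sub_zero]
    simp only [mul_zero, pow_zero, one_mul] at hS ⊢
    have h1 := Dv_bound hQ hM hB hk (by omega) hl0 hB0 hS
    refine h1.trans ?_
    have : K0 ≤ K0 + E / c := by linarith
    exact mul_le_mul_of_nonneg_right this hkR
  | succ n ih =>
    obtain ⟨g, hg, ih⟩ := ih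
    set l' := M ^ (2 * n) * l0 with hl'
    have hl'0 : l0 ≤ l' := hgrow n
    obtain ⟨a, b, hca, hS'⟩ := hSucc M l' k hLM hk (by omega)
    have e1 : M ^ (2 * (n + 1)) * l0 = M ^ 2 * l' := by rw [hl']; ring
    have e2 : M * (M ^ (2 * (n + 1)) * l0) = M ^ 3 * l' := by rw [hl']; ring
    rw [e2, e1]
    set o := ((1 - c) ^ n * K0 + E / c) * k with ho
    have ho0 : 0 ≤ o := mul_nonneg (add_nonneg (mul_nonneg (hcn n).1 hK0p.le) hEc0) hkR
    have key : ∀ S : St, TC S (M ^ 2 * l') 1 (M ^ 3 * l') →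
        |Dv Q S 1 (M ^ 3 * l' / 2) k - (b + (1 - a) * g)| ≤
          ((1 - c) ^ (n + 1) * K0 + E / c) * k := by
      intro S hS
      have h1 := step hQ hCe hα hCs hB hE hM hM4 hk (by omega) hca hC1 hS' ho0 ih S hS
      rw [← hK0] at h1
      refine h1.trans ?_
      set P := Ce * (32 / (M : ℝ)) ^ α with hP
      have hP0 : 0 ≤ P := by positivity
      have h2 : |g| * P ≤ 3 * K0 * k * P := mul_le_mul_of_nonneg_right hg hP0
      have h3 : E = C1 * (M : ℝ) ^ (-α1) + 3 * K0 * Real.sqrt P + 3 * K0 * P := rfl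
      have h4 : ((1 - c) ^ (n + 1) * K0 + E / c) * k = (1 - c) * o + E * k := by
        rw [ho, pow_succ]
        field_simp
        ring
      rw [h4, h3]
      have h5 : (C1 * (M : ℝ) ^ (-α1) + 3 * K0 * Real.sqrt P + 3 * K0 * P) * k =
        C1 * (M : ℝ) ^ (-α1) * k + 3 * (K0 * k) * Real.sqrt P + 3 * K0 * k * P := by ring
      rw [h5]
      linarith
    by_cases hne : ∃ S : St, TC S (M ^ 2 * l') 1 (M ^ 3 * l')
    · refine ⟨b + (1 - a) * g, ?_, key⟩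
      obtain ⟨S, hS⟩ := hne
      have h1 := key S hS
      have h2 : |Dv Q S 1 (M ^ 3 * l' / 2) k| ≤ K0 * k := by
        have e3 : M ^ 3 * l' = M * (M ^ 2 * l') := by ring
        have h3 : 1 ≤ M ^ 2 := one_le_pow₀ (by omega)
        have h4 : l' ≤ M ^ 2 * l' := by nlinarith
        rw [e3] at hS ⊢
        exact Dv_bound hQ hM hB hk (by omega) (by omega) (by omega) hS
      have h3 : |b + (1 - a) * g| ≤ |Dv Q S 1 (M ^ 3 * l' / 2) k| +
          |Dv Q S 1 (M ^ 3 * l' / 2) k - (b + (1 - a) * g)| := by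
        have h4 := abs_sub_abs_le_abs_sub (b + (1 - a) * g) (Dv Q S 1 (M ^ 3 * l' / 2) k)
        rw [abs_sub_comm] at h4
        linarith
      have h5 : ((1 - c) ^ (n + 1) * K0 + E / c) * k ≤ (K0 + K0) * k := by
        refine mul_le_mul_of_nonneg_right (add_le_add ?_ hEc) hkR
        calc _ ≤ 1 * K0 := mul_le_mul_of_nonneg_right (hcn (n + 1)).2 hK0p.le
          _ = K0 := one_mul _
      calc _ ≤ K0 * k + (K0 + K0) * k := h3.trans (add_le_add h2 (h1.trans h5))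
        _ = _ := by ring
    · exact ⟨0, by rw [abs_zero]; positivity, fun S hS => absurd ⟨S, hS⟩ hne⟩

/-- **universality of the displacement** -/
theorem univ (hQ : 0 < Q) (h1 : SUCCA Q) {Ce α Cs' : ℝ} {B : ℤ} (hCe : 0 < Ce) (hα : 0 < α)
    (hCs : 0 < Cs') (hB : 1 ≤ B) (hE : EscA Q Ce α) (hM : SmB Q Cs' B) {ε : ℝ} (hε : 0 < ε)
    (M0 : ℤ) : ∃ M Λ : ℤ, M0 ≤ M ∧ 32 ≤ M ∧ B ≤ Λ ∧ ∀ k : ℕ, 1 ≤ k → ∃ g : ℝ,
      |g| ≤ 3 * ((Cs' + 1) / 2) * k ∧ ∀ (S : St) (x : ℤ), TC S (Λ * k) x (M * (Λ * k)) →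
        |Dv Q S x (M * (Λ * k) / 2) k - g| ≤ ε * k := by
  obtain ⟨c', C1, α1, L, hc', hC1, hα1, hL, hS⟩ := h1
  set c := min c' (1 / 2) with hc
  have hc0 : 0 < c := lt_min hc' (by norm_num)
  have hc1 : c ≤ 1 / 2 := min_le_right _ _
  set K0 := (Cs' + 1) / 2 with hK0
  have hK0p : 0 < K0 := by positivity
  obtain ⟨M1, hM1⟩ := exists_int (tendsto_Er C1 hα1 K0 Ce hα)
    (δ := min (c * K0) (c * (ε / 2))) (lt_min (by positivity) (by positivity))
  set M := max (max M0 32) (max L M1) with hMdef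
  have hMM1 : M1 ≤ M := le_max_of_le_right (le_max_right _ _)
  have hML : L ≤ M := le_max_of_le_right (le_max_left _ _)
  have hMM0 : M0 ≤ M := le_max_of_le_left (le_max_left _ _)
  have hM32 : 32 ≤ M := le_max_of_le_left (le_max_right _ _)
  have hEr := hM1 M hMM1
  obtain ⟨n, hn⟩ := exists_pow_lt_of_lt_one (show 0 < ε / 2 / K0 by positivity)
    (show 1 - c < 1 by linarith)
  have hpow : 1 ≤ M ^ (2 * n) := one_le_pow₀ (by omega)
  refine ⟨M, M ^ (2 * n) * max L B, hMM0, hM32, ?_, fun k hk => ?_⟩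
  · have h2 : B ≤ max L B := le_max_right _ _
    nlinarith
  · have hk1 : (1 : ℤ) ≤ k := by exact_mod_cast hk
    have h3 : L * k ≤ max L B * k := mul_le_mul_of_nonneg_right (le_max_left _ _) (by omega)
    have h4 : B * k ≤ max L B * k := mul_le_mul_of_nonneg_right (le_max_right _ _) (by omega)
    have h5 : 0 ≤ B * k := by positivity
    obtain ⟨g, hg, h⟩ := iter hQ hCe hα hCs hB hE hM hc0 (by linarith) hC1.le hL
      (fun M l' k a1 a2 a3 => by
        obtain ⟨a, b, h6, h7⟩ := hS M l' k a1 a2 a3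
        exact ⟨a, b, (min_le_left _ _).trans h6, h7⟩) hM32 hML (hEr.trans (min_le_left _ _)) k hk
      (max L B * k) h3 (by omega) n
    refine ⟨g, hg, fun S x hSx => ?_⟩
    rw [show M ^ (2 * n) * max L B * (k : ℤ) = M ^ (2 * n) * (max L B * k) by ring] at hSx ⊢
    obtain ⟨S2, h6, h7⟩ := exists_tr hQ hSx (M * (M ^ (2 * n) * (max L B * k)) / 2) k
    rw [← h7]
    refine (h S2 h6).trans (mul_le_mul_of_nonneg_right ?_ (by positivity))
    have h8 : Er C1 α1 K0 Ce α M / c ≤ ε / 2 := by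
      rw [div_le_iff₀ hc0]
      calc _ ≤ c * (ε / 2) := hEr.trans (min_le_right _ _)
        _ = _ := by ring
    have h9 : (1 - c) ^ n * K0 ≤ ε / 2 := by
      rw [← le_div_iff₀ hK0p]
      exact hn.le
    rw [← hK0]
    linarith

/-- probability of the escape of the intermediate state -/
theorem esc_Hb {C α : ℝ} (hE : EscA Q C α) (hZ : Zone S u w l') {b r0 R : ℤ} (h1 : 1 ≤ r0)
    (h2 : r0 ≤ R) (hH : Hb S b R) (hr : ∀ v ∈ HB b r0, v ∈ Lo u w (4 * l')) (_hω : Cs S ω)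
    (ht : hdv (S.X1 (Lo u w (4 * l')) ω) ∈ HB b r0) :
    PQ Q (S.rv (S.RV (Lo u w (4 * l')) ω) ω) (NoArc (S.rv (S.RV (Lo u w (4 * l')) ω) ω) b r0 R) ≤
      C * ((r0 : ℝ) / R) ^ α :=
  esc_int (Q := Q) hE hZ.toOk hZ.fr h1 h2 hH.gq hH.mem hH.not hH.po hr ht

/-- the far part of the observable -/
theorem far_Hb (hQ : 0 < Q) {Ce α Cs' : ℝ} {B : ℤ} (hCe : 0 < Ce) (hB : 1 ≤ B) (hE : EscA Q Ce α)
    (hM : SmB Q Cs' B) (hZ : Zone S u w l') (hk : 1 ≤ k) (hBk : B * k ≤ 4 * l') {b r0 R : ℤ}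
    (h1 : 1 ≤ r0) (h2 : r0 ≤ R) (hH : Hb S b R)
    (hr : ∀ v ∈ HB b r0, v ∈ Lo u w (4 * l'))
    (hψ : ∀ x, |ψ x| ≤ 1) (hs : ∀ x, ψ x ≠ 0 → u - w + B * k ≤ x ∧ x ≤ u + w - B * k)
    (hoff : ∀ x, b - R ≤ x → x ≤ b + R + 1 → ψ x = 0) (hω : Cs S ω)
    (ht : hdv (S.X1 (Lo u w (4 * l')) ω) ∈ HB b r0) :
    EQ Q (S.rv (S.RV (Lo u w (4 * l')) ω) ω) (fun ξ => |J S.D S.e0 ψ k ξ|) ≤
      (Cs' + 1) / 2 * k * Real.sqrt (Ce * ((r0 : ℝ) / R) ^ α) := by
  have hkB : (k : ℤ) ≤ B * k := by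
    have : (0 : ℤ) ≤ k := Int.natCast_nonneg k
    nlinarith
  have hk1 : (1 : ℤ) ≤ k := by exact_mod_cast hk
  have hesc := esc_Hb (Q := Q) hE hZ h1 h2 hH hr hω ht
  set A := Lo u w (4 * l') with hA
  set S' := S.rv (S.RV A ω) ω with hS'
  have hsm := hM S' u w (4 * l') k ψ hk hBk (hZ.ta ω) (gq_rv hZ.gq _ ω) hψ hs
  have hp : 0 < Ce * ((r0 : ℝ) / R) ^ α := by
    have h3 : (0 : ℝ) < r0 := by exact_mod_cast (by omega : 0 < r0)
    have h4 : (0 : ℝ) < R := by exact_mod_cast (by omega : 0 < R)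
    positivity
  have hcs := cs_bound hQ S' (X := fun ξ => J S.D S.e0 ψ k ξ) (κ := (k : ℝ))
    (by exact_mod_cast hk) hp hsm hesc
  refine le_trans (EQ_mono hQ fun ξ hξ => ?_) hcs
  by_cases hV : ξ ∈ NoArc S' b r0 R
  · rw [Set.indicator_of_mem hV]
    simp
  · obtain ⟨-, k3⟩ := conf_int hZ h1 h2 hH.gq hH.mem hH.not ht hξ hV
    have h0 : J S.D S.e0 ψ k ξ = 0 := by
      refine J_off (h := 4 * l') (u := u) (w := w) k3 (by omega) (fun x hx => ?_) hoff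
      have h3 := hs x hx
      exact ⟨by omega, by omega⟩
    have h3 : |J S.D S.e0 ψ k ξ| = 0 := by rw [h0, abs_zero]
    rw [h3, zero_mul]

/-- **the landing point of the intermediate state** -/
theorem foot_int (hQ : 0 < Q) {C α : ℝ} (hE : EscA Q C α) (hZ : Zone S u w l') {b r0 R : ℤ}
    (h1 : 1 ≤ r0) (h2 : r0 ≤ R) (hH : Hb S b R) (hr : ∀ v ∈ HB b r0, v ∈ Lo u w (4 * l'))
    (_hD : ∀ v : ℤ × ℤ, b - R - 1 ≤ v.1 → v.1 ≤ b + R + 1 → 0 ≤ v.2 → v.2 ≤ R + 1 → v ∈ S.D)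
    (hω : Cs S ω) (ht : hdv (S.X1 (Lo u w (4 * l')) ω) ∈ HB b r0) (hψ : ∀ x, |ψ x| ≤ 1) {a lam : ℝ}
    (ha : |a| ≤ 1) (hlam : 0 ≤ lam) (hm : ∀ y, |y - b| ≤ R → |a - ψ y| ≤ lam) :
    EQ Q (S.rv (S.RV (Lo u w (4 * l')) ω) ω)
      (fun ξ => |a - H365.NQ.wf ψ (H318.st S.e0 ξ (ex S.D S.e0 ξ))|) ≤
      lam + 2 * (C * ((r0 : ℝ) / R) ^ α) := by
  have hesc := esc_Hb (Q := Q) hE hZ h1 h2 hH hr hω ht
  set A := Lo u w (4 * l') with hA
  set V : Set Cfg := NoArc (S.rv (S.RV A ω) ω) b r0 R with hV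
  have h3 : EQ Q (S.rv (S.RV A ω) ω)
      (fun ξ => |a - H365.NQ.wf ψ (H318.st S.e0 ξ (ex S.D S.e0 ξ))|) ≤
      EQ Q (S.rv (S.RV A ω) ω) (fun ξ => lam + 2 * V.indicator 1 ξ) := by
    refine EQ_mono hQ fun ξ hξ => ?_
    by_cases hξV : ξ ∈ V
    · rw [Set.indicator_of_mem hξV]
      have h4 := abs_sub a (H365.NQ.wf ψ (H318.st S.e0 ξ (ex S.D S.e0 ξ)))
      have h5 := wf_le hψ (H318.st S.e0 ξ (ex S.D S.e0 ξ))
      simp only [Pi.one_apply]
      linarith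
    · rw [Set.indicator_of_notMem hξV]
      obtain ⟨⟨y, hy1, hy2⟩, -⟩ := conf_int hZ h1 h2 hH.gq hH.mem hH.not ht hξ hξV
      rw [hy2]
      have h5 : H365.NQ.wf ψ (Sum.inr (y, -1)) = ψ y := by
        show (if (-1 : ℤ) = -1 then ψ y else (0 : ℝ)) = ψ y
        rw [if_pos rfl]
      rw [h5]
      have := hm y hy1
      linarith
  refine h3.trans ?_
  rw [EQ_add, EQ_const hQ, EQ_mul]
  exact add_le_add le_rfl (mul_le_mul_of_nonneg_left hesc (by norm_num))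

/-- **the displacement of a strand from far away**, with explicit errors -/
theorem land (hQ : 0 < Q) {Ce α Cs' : ℝ} {B : ℤ} (hCe : 0 < Ce) (hα : 0 < α) (hCs : 0 < Cs')
    (hB : 1 ≤ B) (hE : EscA Q Ce α) (hM : SmB Q Cs' B) {M : ℤ} (hM32 : 32 ≤ M) (hk : 1 ≤ k)
    (hl1 : 1 ≤ l') (hBk : B * k ≤ 4 * l') (hw : 8 * M * (M * l') ≤ w)
    (hZ2 : Zone S u (2 * w) l') (hZ4 : Zone S u (4 * w - 1) l') (hF : ∀ v ∈ Lo u (4 * w) (4 * w + 1), v ∈ S.D)
    (hψ : ∀ x, |ψ x| ≤ 1) (hL : ∀ x x' : ℤ, |ψ x - ψ x'| ≤ |(x : ℝ) - x'| / w)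
    (hs : ∀ x, ψ x ≠ 0 → u - w ≤ x ∧ x ≤ u + w) {g ε : ℝ} (hε : 0 ≤ ε)
    (hg : ∀ (S1 : St) (x : ℤ), TC S1 l' x (M * l') → |Dv Q S1 x (M * l' / 2) k - g| ≤ ε * k) :
    |EQ Q S (J S.D S.e0 ψ k) - g * EQ Q S (fun ω => H365.NQ.wf ψ (H318.st S.e0 ω (ex S.D S.e0 ω)))| ≤
      ε * k + (Cs' + 1) / 2 * k * (1 / M + 2 * Real.sqrt (Ce * (32 / (M : ℝ)) ^ α)) +
        |g| * (1 / M + 4 * (Ce * (32 / (M : ℝ)) ^ α)) := by
  have hk1 : (1 : ℤ) ≤ k := by exact_mod_cast hk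
  have hkB : (k : ℤ) ≤ B * k := by nlinarith
  have hMR : (0 : ℝ) < M := by exact_mod_cast (by omega : 0 < M)
  set P := Ce * (32 / (M : ℝ)) ^ α with hP
  have hP0 : 0 < P := by positivity
  have hsP : 0 < Real.sqrt P := Real.sqrt_pos.2 hP0
  set r := M * l' with hr
  have hr32 : 32 * l' ≤ r := by rw [hr]; nlinarith
  have hwr : 256 * r ≤ w := by
    refine le_trans ?_ hw
    have : 0 ≤ r := by omega
    nlinarith
  have hwR : (0 : ℝ) < w := by exact_mod_cast (by omega : 0 < w)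
  set A := Lo u (2 * w) (4 * l') with hA
  set Z : ℤ → Prop := fun x => |x - u| ≤ w + w / 2 with hZdef
  set I : Cfg → ℝ := fun ω => iz A Z (S.X1 A ω) with hI
  have hI0 : ∀ ω, 0 ≤ I ω := fun ω => iz_nonneg _ _ _
  have hI1 : ∀ ω, I ω ≤ 1 := fun ω => iz_le_one _ _ _
  have hlam : (0 : ℝ) < 1 / M := by positivity
  have hrw : (r : ℝ) / w ≤ 1 / M := by
    rw [div_le_div_iff₀ hwR hMR, one_mul]
    have h1 : r * M ≤ w := by
      refine le_trans ?_ hw
      have h2 : 0 ≤ r := by omega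
      have h3 : 0 ≤ M * r := by positivity
      calc r * M = M * r := by ring
        _ ≤ 8 * (M * r) := by omega
        _ = 8 * M * r := by ring
    exact_mod_cast h1
  have hmod : ∀ x y : ℤ, |y - x| ≤ r → |ψ y - ψ x| ≤ 1 / M := by
    intro x y h
    refine (hL y x).trans (le_trans ?_ hrw)
    refine div_le_div_of_nonneg_right ?_ hwR.le
    have : ((|y - x| : ℤ) : ℝ) ≤ r := by exact_mod_cast h
    rwa [Int.cast_abs, Int.cast_sub] at this
  have hs2 : ∀ x, ψ x ≠ 0 → u - 2 * w + B * k ≤ x ∧ x ≤ u + 2 * w - B * k := fun x hx => by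
    have := hs x hx
    omega
  have hgen := gen (Y := fun _ => 1) (Z := Z) (ψ := ψ) (lam := 1 / (M : ℝ)) hQ hCe hB hE hM hZ2 hk
    hBk hr32 (fun x hx => by
      have : |x - u| ≤ w + w / 2 := hx
      omega) hψ hs2 hlam (fun x y _ h => hmod x y (by omega)) (fun _ _ _ _ _ => rfl)
    (fun _ => ⟨zero_le_one, le_rfl⟩) hg
  rw [← hA] at hgen
  simp only [one_mul] at hgen
  -- the escape probabilities
  have hp1 : Ce * (((4 * l' - 1 : ℤ) : ℝ) / ((r / 2 - 1 : ℤ) : ℝ)) ^ α ≤ P := by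
    refine mul_le_mul_of_nonneg_left (ratio_le (by omega) (by omega) (by omega) ?_ hα) hCe.le
    have h1 : (4 * l' - 1) * M = 4 * r - M := by rw [hr]; ring
    rw [h1]
    omega
  have hp3 : Ce * (((4 * l' - 1 : ℤ) : ℝ) / ((w / 4 : ℤ) : ℝ)) ^ α ≤ P := by
    refine mul_le_mul_of_nonneg_left (ratio_le (by omega) (by omega) (by omega) ?_ hα) hCe.le
    have h1 : (4 * l' - 1) * M = 4 * r - M := by rw [hr]; ring
    rw [h1]
    omega
  set K := (Cs' + 1) / 2 * (k : ℝ) with hK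
  have hK0 : 0 ≤ K := by positivity
  have hkR : (0 : ℝ) ≤ k := by positivity
  have b1 : |EQ Q S (fun ω => I ω * (J S.D S.e0 ψ k ω - g * ψ (hdv (S.X1 A ω)).1))| ≤
      ε * k + K * (1 / M + Real.sqrt P) := by
    refine hgen.trans (add_le_add ?_ ?_)
    · have h1 : EQ Q S (fun ω => iz A Z (S.X1 A ω)) ≤ 1 := by
        calc _ ≤ EQ Q S (fun _ => 1) := EQ_mono hQ fun ω _ => hI1 ω
          _ = 1 := EQ_const hQ 1
      have h2 : 0 ≤ ε * k := mul_nonneg hε hkR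
      calc _ ≤ ε * k * 1 := mul_le_mul_of_nonneg_left h1 h2
        _ = _ := mul_one _
    · refine mul_le_mul_of_nonneg_left ?_ hK0
      have := Real.sqrt_le_sqrt hp1
      linarith
  -- the far entrances
  have hfar : ∀ ω, Cs S ω → hdv (S.X1 A ω) ∈ A → ¬ Z (hdv (S.X1 A ω)).1 →
      ∃ b, Hb S b (w / 4) ∧ (∀ v ∈ HB b (4 * l' - 1), v ∈ A) ∧
        hdv (S.X1 A ω) ∈ HB b (4 * l' - 1) ∧
        (∀ v : ℤ × ℤ, b - w / 4 - 1 ≤ v.1 → v.1 ≤ b + w / 4 + 1 → 0 ≤ v.2 → v.2 ≤ w / 4 + 1 →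
          v ∈ S.D) ∧ ∀ x, b - w / 4 ≤ x → x ≤ b + w / 4 + 1 → ψ x = 0 := by
    intro ω hω h1 h2
    have h3 : ¬ |(hdv (S.X1 A ω)).1 - u| ≤ w + w / 2 := h2
    obtain ⟨a1, a2, a3, a4⟩ := h1
    have h4 : u + (w + w / 2) < (hdv (S.X1 A ω)).1 ∨ (hdv (S.X1 A ω)).1 < u - (w + w / 2) := by
      by_contra hcon
      push Not at hcon
      exact h3 (abs_le.2 ⟨by omega, by omega⟩)
    rcases h4 with h4 | h4
    · refine ⟨(hdv (S.X1 A ω)).1 - (4 * l' - 1), hZ4.Hb ?_, fun v hv => ?_, ?_, ?_, ?_⟩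
      · rw [abs_of_nonneg (by omega)]
        omega
      · obtain ⟨c1, c2, c3, c4⟩ := hv
        exact ⟨by omega, by omega, c3, by omega⟩
      · exact ⟨by omega, by omega, a3, by omega⟩
      · intro v c1 c2 c3 c4
        exact hF v ⟨by omega, by omega, c3, by omega⟩
      · intro x c1 c2
        by_contra hne
        have := hs x hne
        omega
    · refine ⟨(hdv (S.X1 A ω)).1 + (4 * l' - 1), hZ4.Hb ?_, fun v hv => ?_, ?_, ?_, ?_⟩
      · rw [abs_of_nonpos (by omega)]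
        omega
      · obtain ⟨c1, c2, c3, c4⟩ := hv
        exact ⟨by omega, by omega, c3, by omega⟩
      · exact ⟨by omega, by omega, a3, by omega⟩
      · intro v c1 c2 c3 c4
        exact hF v ⟨by omega, by omega, c3, by omega⟩
      · intro x c1 c2
        by_contra hne
        have := hs x hne
        omega
  have b2 : |EQ Q S (fun ω => (1 - I ω) * J S.D S.e0 ψ k ω)| ≤ K * Real.sqrt P := by
    have h1 : |EQ Q S (fun ω => (1 - I ω) * J S.D S.e0 ψ k ω)| ≤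
        EQ Q S (fun ω => (1 - I ω) * |J S.D S.e0 ψ k ω|) := by
      refine (EQ_abs hQ _).trans (EQ_mono hQ fun ω _ => ?_)
      have := hI1 ω
      rw [abs_mul, abs_of_nonneg (by linarith : 0 ≤ 1 - I ω)]
    refine h1.trans ?_
    have e2 := EQ_stop hQ hZ2.gq.good (stopSet_RV hZ2.st A) (RV_cf A)
      (pastS_X1 hZ2.st A (fun ω => Finset.Subset.refl _) fun e => 1 - iz A Z e)
      (fun ω => |J S.D S.e0 ψ k ω|)
    refine e2.le.trans ?_
    have hpt : ∀ ω, Cs S ω → (1 - iz A Z (S.X1 A ω)) * EQ Q (S.rv (S.RV A ω) ω)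
        (fun ω => |J S.D S.e0 ψ k ω|) ≤ K * Real.sqrt P := by
      intro ω hω
      by_cases h2 : hdv (S.X1 A ω) ∈ A ∧ Z (hdv (S.X1 A ω)).1
      · have h3 : iz A Z (S.X1 A ω) = 1 := if_pos h2
        rw [h3, sub_self, zero_mul]
        positivity
      have h3 : iz A Z (S.X1 A ω) = 0 := if_neg h2
      rw [h3, sub_zero, one_mul]
      by_cases h4 : hdv (S.X1 A ω) ∈ A
      · have h5 : ¬ Z (hdv (S.X1 A ω)).1 := fun h => h2 ⟨h4, h⟩
        obtain ⟨b, c1, c2, c3, c4, c5⟩ := hfar ω hω h4 h5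
        have h6 := far_Hb hQ hCe hB hE hM hZ2 hk hBk (r0 := 4 * l' - 1) (R := w / 4) (by omega)
          (by omega) c1 c2 hψ hs2 c5 hω c3
        refine h6.trans (mul_le_mul_of_nonneg_left ?_ hK0)
        exact Real.sqrt_le_sqrt hp3
      · have h6 : EQ Q (S.rv (S.RV A ω) ω) (fun ω => |J S.D S.e0 ψ k ω|) =
            EQ Q (S.rv (S.RV A ω) ω) (fun _ => 0) := by
          refine EQ_congr fun ξ hξ => ?_
          obtain ⟨p1, p2, p3⟩ := int_path hZ2.st hω hξ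
          have h7 : hdv (S.X1 A ξ) ∉ A := by
            have h8 : S.X1 A ξ = S.X1 A ω := by
              show H318.st S.e0 (S.cf ξ) (hit S.D S.e0 A (S.cf ξ)) =
                H318.st S.e0 (S.cf ω) (hit S.D S.e0 A (S.cf ω))
              rw [p1.cf, hω.cf, p3, p2 _ le_rfl]
            rw [h8]
            exact h4
          rw [no_J hZ2 p1 (by omega) h7 (fun x hx => by
            have := hs x hx
            omega), abs_zero]
        rw [h6, EQ_const hQ]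
        positivity
    calc _ ≤ EQ Q S (fun _ => K * Real.sqrt P) := EQ_mono hQ hpt
      _ = _ := EQ_const hQ _
  -- the landing point
  set W : Cfg → ℝ := fun ω => H365.NQ.wf ψ (H318.st S.e0 ω (ex S.D S.e0 ω)) with hW
  have b3 : |EQ Q S (fun ω => I ω * ψ (hdv (S.X1 A ω)).1 - W ω)| ≤ 1 / M + 4 * P := by
    refine (EQ_abs hQ _).trans ?_
    have e2 := EQ_stop (Y := fun _ => 1) hQ hZ2.gq.good (stopSet_RV hZ2.st A) (RV_cf A)
      (fun _ _ _ _ _ => rfl) (fun ω => |I ω * ψ (hdv (S.X1 A ω)).1 - W ω|)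
    simp only [one_mul] at e2
    refine e2.le.trans ?_
    have hpt : ∀ ω, Cs S ω → EQ Q (S.rv (S.RV A ω) ω)
        (fun ω => |I ω * ψ (hdv (S.X1 A ω)).1 - W ω|) ≤ 1 / M + 4 * P := by
      intro ω hω
      have h2 := EQ_past (R := S.RV A) (Q := Q) hQ hω (Z := fun ω => S.X1 A ω)
        (fun ω' _ h' => past_X1 hZ2.st A ω ω' h')
        (fun e ω' => |iz A Z e * ψ (hdv e).1 - W ω'|)
      refine h2.le.trans ?_
      by_cases h3 : hdv (S.X1 A ω) ∈ A ∧ Z (hdv (S.X1 A ω)).1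
      · have h4 : iz A Z (S.X1 A ω) = 1 := if_pos h3
        rw [h4]
        simp only [one_mul]
        have h5 : |(hdv (S.X1 A ω)).1 - u| ≤ w + w / 2 := h3.2
        obtain ⟨c1, c2⟩ := abs_le.1 h5
        obtain ⟨a1, a2, a3, a4⟩ := h3.1
        have h6 := foot_int (a := ψ (hdv (S.X1 A ω)).1) (lam := 1 / (M : ℝ)) hQ hE hZ2
          (b := (hdv (S.X1 A ω)).1) (r0 := 4 * l' - 1) (R := r / 2 - 1) (by omega) (by omega)
          (hZ2.Hb (by omega)) (fun v hv => by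
            obtain ⟨d1, d2, d3, d4⟩ := hv
            exact ⟨by omega, by omega, d3, by omega⟩)
          (fun v d1 d2 d3 d4 => hF v ⟨by omega, by omega, d3, by omega⟩) hω
          (show hdv (S.X1 A ω) ∈ HB (hdv (S.X1 A ω)).1 (4 * l' - 1) from
            ⟨by omega, by omega, a3, by omega⟩) hψ (hψ _) hlam.le
          (fun y hy => by
            rw [abs_sub_comm]
            exact hmod _ _ (by omega))
        refine h6.trans ?_
        linarith
      · have h4 : iz A Z (S.X1 A ω) = 0 := if_neg h3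
        rw [h4]
        simp only [zero_mul]
        by_cases h5 : hdv (S.X1 A ω) ∈ A
        · have h6 : ¬ Z (hdv (S.X1 A ω)).1 := fun h => h3 ⟨h5, h⟩
          obtain ⟨b, c1, c2, c3, c4, c5⟩ := hfar ω hω h5 h6
          have h7 := foot_int (a := 0) (lam := 0) hQ hE hZ2
            (b := b) (r0 := 4 * l' - 1) (R := w / 4) (by omega) (by omega) c1 c2 c4 hω c3 hψ
            (by rw [abs_zero]; exact zero_le_one) le_rfl
            (fun y hy => by
              have := abs_le.1 hy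
              rw [c5 y (by omega) (by omega), sub_self, abs_zero])
          refine h7.trans ?_
          linarith
        · have h6 : EQ Q (S.rv (S.RV A ω) ω) (fun ω => |0 - W ω|) =
            EQ Q (S.rv (S.RV A ω) ω) (fun _ => 0) := by
            refine EQ_congr fun ξ hξ => ?_
            obtain ⟨p1, p2, p3⟩ := int_path hZ2.st hω hξ
            have h7 : hdv (S.X1 A ξ) ∉ A := by
              have h8 : S.X1 A ξ = S.X1 A ω := by
                show H318.st S.e0 (S.cf ξ) (hit S.D S.e0 A (S.cf ξ)) =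
                  H318.st S.e0 (S.cf ω) (hit S.D S.e0 A (S.cf ω))
                rw [p1.cf, hω.cf, p3, p2 _ le_rfl]
              rw [h8]
              exact h5
            have h9 : W ξ = 0 := no_foot hZ2 p1 h7 (fun x hx => by
              have := hs x hx
              omega)
            rw [h9, sub_zero, abs_zero]
          rw [h6, EQ_const hQ]
          positivity
    calc _ ≤ EQ Q S (fun _ => 1 / (M : ℝ) + 4 * P) := EQ_mono hQ hpt
      _ = _ := EQ_const hQ _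
  -- the sum
  have e1 : EQ Q S (J S.D S.e0 ψ k) - g * EQ Q S W =
      EQ Q S (fun ω => I ω * (J S.D S.e0 ψ k ω - g * ψ (hdv (S.X1 A ω)).1)) +
      EQ Q S (fun ω => (1 - I ω) * J S.D S.e0 ψ k ω) +
      g * EQ Q S (fun ω => I ω * ψ (hdv (S.X1 A ω)).1 - W ω) := by
    rw [← EQ_mul, ← EQ_mul, ← EQ_sub, ← EQ_add, ← EQ_add]
    refine EQ_congr fun ω _ => ?_
    ring
  rw [e1]
  refine (abs_add_le _ _).trans ((add_le_add (abs_add_le _ _) le_rfl).trans ?_)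
  rw [abs_mul]
  calc _ ≤ (ε * k + K * (1 / M + Real.sqrt P)) + K * Real.sqrt P + |g| * (1 / M + 4 * P) :=
        add_le_add (add_le_add b1 b2) (mul_le_mul_of_nonneg_left b3 (abs_nonneg _))
    _ = _ := by ring

/-- **Q-NSYM-REC**: the displacement of a strand which comes from far away is a universal multiple of
the weight of its landing point -/
theorem symq (hQ : 0 < Q) (hS : SUCCA Q) (hE' : ESCA Q) (hM' : SMQ Q) : SYMQ Q := by
  obtain ⟨Ce, α, hCe, hα, hE⟩ := hE'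
  obtain ⟨Cs', B, hCs, hB, hM⟩ := hM'
  have hE : EscA Q Ce α := hE
  have hM : SmB Q Cs' B := hM
  set K0 := (Cs' + 1) / 2 with hK0
  have hK0p : 0 < K0 := by positivity
  refine ⟨3 * K0, fun ε hε => ?_⟩
  obtain ⟨M0, hM0⟩ := exists_int (tendsto_Er2 K0 Ce hα) (δ := ε / 2) (by positivity)
  obtain ⟨M, Λ, h1, h2, h3, h4⟩ := univ hQ hS hCe hα hCs hB hE hM (half_pos hε) M0
  refine ⟨8 * M * (M * Λ), fun k w hk hw => ?_⟩
  obtain ⟨g, hg, hg'⟩ := h4 k hk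
  refine ⟨g, hg, fun u S ψ hk hw hok hG hF hn he hψ hL hs => ?_⟩
  have hk1 : (1 : ℤ) ≤ k := by exact_mod_cast hk
  have hΛ1 : 1 ≤ Λ := by omega
  have hl1 : 1 ≤ Λ * k := by nlinarith
  have hMl : 32 * (Λ * k) ≤ M * (Λ * k) := by nlinarith
  have hw' : 8 * M * (M * (Λ * k)) ≤ w := by
    calc _ = 8 * M * (M * Λ) * k := by ring
      _ ≤ w := hw
  have hw2 : 256 * (M * (Λ * k)) ≤ w := by
    refine le_trans ?_ hw'
    have : 0 ≤ M * (Λ * k) := by omega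
    nlinarith
  have hBk : B * k ≤ 4 * (Λ * k) := by nlinarith
  have hkR : (0 : ℝ) ≤ k := by positivity
  have key := land hQ hCe hα hCs hB hE hM h2 hk hl1 hBk hw'
    (zone_of hok hG hF hn he (by omega) hl1 (by omega))
    (zone_of hok hG hF hn he (by omega) hl1 (by omega))
    (fun v hv => hok.sub ((hF v).2 hv)) hψ hL hs (half_pos hε).le hg'
  have hMR : (0 : ℝ) < M := by exact_mod_cast (by omega : 0 < M)
  set P := Ce * (32 / (M : ℝ)) ^ α with hP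
  have hP0 : 0 < P := by positivity
  have h5 : |g| * (1 / M + 4 * P) ≤ 3 * K0 * k * (1 / M + 4 * P) :=
    mul_le_mul_of_nonneg_right hg (by positivity)
  have h6 := hM0 M h1
  have h7 : Er2 K0 Ce α M = K0 * (1 / M + 2 * Real.sqrt P) + 3 * K0 * (1 / M + 4 * P) := rfl
  rw [h7] at h6
  refine key.trans ?_
  calc _ ≤ ε / 2 * k + K0 * k * (1 / M + 2 * Real.sqrt P) + 3 * K0 * k * (1 / M + 4 * P) :=
        add_le_add le_rfl h5
    _ = ε / 2 * k + (K0 * (1 / M + 2 * Real.sqrt P) + 3 * K0 * (1 / M + 4 * P)) * k := by ring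
    _ ≤ ε / 2 * k + ε / 2 * k := add_le_add le_rfl (mul_le_mul_of_nonneg_right h6 hkR)
    _ = ε * k := by ring

end Vale.Agent.P167.N.H685.Q
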