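import Vale.Agent.P167.N.H461.GrefE
import Vale.Agent.P167.N.H632.Q.EscQ
import Vale.Agent.P167.N.H632.Q.SMQ
import Vale.Agent.P167.N.H685.Q.Rec9
import Vale.Agent.P167.N.H704.Q.Minor
import Vale.Agent.P167.H318.Q.SuccA

/-!
# P167, the range `0 < q < 1`, block Q-NSYM: universality of the displacement
-/

set_option autoImplicit false

namespace Vale.Agent.P167.N.H685.Q

open Vale.Agent.P167 Vale.Agent.P167.FK Vale.Agent.P167.FKA

/-- **`SYMQ`** -/
theorem symq_all {Q : ℝ} (hQ : Kit Q) (hR : RSW Q) (_hS : H192.Q.SRSW Q) : H365.NQ.SYMQ Q := by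
  have hE : ESCA Q := N.H632Q.esca hQ.pos hQ.arcw
  exact symq hQ.pos (H318.UQ.succa hQ.pos (N.H704.Q.minor' hQ hR) (N.H461.gref hQ)) hE
    (N.H632Q.smq hQ.pos hE)

end Vale.Agent.P167.N.H685.Q
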