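import Vale.Agent.P167.N.H632.Q.EscQ
import Vale.Agent.P167.H685.Q.Rec9

/-!
# P167, the range `0 < q < 1`: strands confined by two arcs and the observable at the side
-/

set_option autoImplicit false

namespace Vale.Agent.P167.N.H685.Q

open Finset Vale.Agent.P167 Vale.Agent.P167.FK Vale.Agent.P167.FKA Relation Filter Topology
open Vale.Agent.P167.H558 (StopSet Past)
open Vale.Agent.P167.H192 (ov ov_mem ov_notMem)
open Vale.Agent.P167.H318 (St TA TB Flat PO Lo HB J ex hit Visit CoConn Adj wt mem_RV RV_notMem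
  RV_path stopSet_RV past_X1 rv_cf rv_ok st_m RV_sub)
open Vale.Agent.P167.H365.NQ (SYMQ SymQE)
open Vale.Agent.P167.H632 (sq_inl)
open Vale.Agent.P167.H685.Q
open Vale.Agent.P167.H166Q (OArcW DArcW)

variable {Q : ℝ} {S : St} {ω ω' ξ : Cfg} {u w l' r : ℤ} {D : Finset (ℤ × ℤ)} {e : Ed} {k : ℕ}
  {ψ ψ' : ℤ → ℝ} {R : Cfg → Finset (ℤ × ℤ)}

/-- the low squares off the window -/
def Zf (u w h b R : ℤ) : Set (ℤ × ℤ) := {v | v ∈ Lo u w h ∧ (v.1 < b - R ∨ b + R < v.1)}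

/-- a strand which does not visit the low squares off the window does not see the weights there -/
theorem J_off {h b R : ℤ} (h1 : ∀ j < ex D e ξ, hdv (H318.st e ξ j) ∉ Zf u w h b R)
    (hk : (k : ℤ) ≤ h) (hψ : ∀ x, ψ x ≠ 0 → u - w + 1 ≤ x ∧ x ≤ u + w)
    (h3 : ∀ x, b - R ≤ x → x ≤ b + R + 1 → ψ x = 0) : J D e ψ k ξ = 0 := by
  refine Finset.sum_eq_zero fun i hi => ?_
  rw [Finset.mem_range] at hi
  have h4 := h1 i hi
  generalize H318.st e ξ i = f at h4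
  rcases f with v | v
  · show (if 0 ≤ v.2 ∧ v.2 < (k : ℤ) then ψ (v.1 + 1) * (sg (Sum.inl v) : ℝ) else (0 : ℝ)) = 0
    split_ifs with hc
    · have h5 : ψ (v.1 + 1) = 0 := by
        by_contra hne
        obtain ⟨h6, h7⟩ := hψ _ hne
        have h8 : v.1 + 1 < b - R ∨ b + R + 1 < v.1 + 1 := by
          by_contra hcon
          push Not at hcon
          exact hne (h3 _ hcon.1 hcon.2)
        apply h4
        rcases sq_inl v with h | h
        · rw [h.1]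
          exact ⟨⟨by omega, by omega, hc.1, by omega⟩, by omega⟩
        · rw [h.1]
          exact ⟨⟨by dsimp only; omega, by dsimp only; omega, hc.1, by dsimp only; omega⟩,
            by dsimp only; omega⟩
      rw [h5, zero_mul]
    · rfl
  · rfl

/-- **Confinement**: two arcs in the half annulus around the tip of a state. -/
theorem conf {S1 : St} {b r0 R h : ℤ} (hOk : S1.Ok) (h1 : 1 ≤ r0) (h2 : r0 ≤ R) (hG : Gq S1 b R)
    (hD : ∀ v ∈ HB b R, v ∈ S1.D) (hn : ∀ x, b - R ≤ x → x ≤ b + R → (x, (-1 : ℤ)) ∉ S1.D)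
    (ht : hdv S1.tip ∈ HB b r0) (hF : ∀ v ∈ Lo u w h, v ∈ S1.F)
    (hrow : ∀ x, u - w ≤ x → x ≤ u + w → (x, (-1 : ℤ)) ∉ S1.D) (hξ : Cs S1 ξ)
    (ha : OArcW S1 b r0 R ξ ∧ DArcW S1 b r0 R ξ) :
    S1.m < ex S1.D S1.e0 ξ ∧
    (∃ y, |y - b| ≤ R ∧ H318.st S1.e0 ξ (ex S1.D S1.e0 ξ) = Sum.inr (y, -1)) ∧
      ∀ j < ex S1.D S1.e0 ξ, hdv (H318.st S1.e0 ξ j) ∉ Zf u w h b R := by
  obtain ⟨k1, ⟨y, y1, y2, y3⟩, k3⟩ := N.H632Q.arcs_land (Z := Zf u w h b R) hOk (by omega) hξ hD hn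
    hG.ne (by
      obtain ⟨a1, a2, a3, a4⟩ := ht
      exact ⟨by omega, by omega, a3, by omega⟩) ha.1 ha.2 (fun v hv => hF v hv.1)
    (fun v hv => hv.1.2.2.1) (fun v hv _ => hrow _ hv.1.1 hv.1.2.1)
    (fun v hv h0 => ⟨⟨hv.1.1, hv.1.2.1, by dsimp only; omega, by
      have := hv.1.2.2.2
      dsimp only
      omega⟩, hv.2⟩) (fun v hv => hv.2)
  exact ⟨k1, ⟨y, abs_le.2 ⟨by omega, by omega⟩, y3⟩, k3⟩

end Vale.Agent.P167.N.H685.Q
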