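import Vale.Agent.P167.N.H166Q.GDefs
import Vale.Agent.P167.N.H685.Q.RecA
import Vale.Agent.P167.H685.Q.Det4
import Vale.Agent.P167.H318.Q.Top

/-!
# P167, the range `0 < q < 1`, block Q-NSYM, GREF: `DET`
-/

set_option autoImplicit false

namespace Vale.Agent.P167.N.H685.Q.Det

open Finset Vale.Agent.P145.FB Vale.Agent.P153 Vale.Agent.P153.Topo Vale.Agent.P167
  Vale.Agent.P167.H632 Vale.Agent.P167.H871 Vale.Agent.P167.H704 Vale.Agent.P167.FK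
  Vale.Agent.P167.FKA Vale.Agent.P167.H704.Q
open Vale.Agent.P167.H318 (St TB Lo Pt0 Cl0 FlatAt st hs_notF hit ex Visit st_m rv_m RV_notMem)
open Vale.Agent.P167.H318.UQ (Rc mem_Rc Oc Dc Cq Aq Gt Te Tw ArE ArW An LB RB Ctr)
open Vale.Agent.P167.H685.Q (TC hbF mem_hbF Cs)
open Vale.Agent.P167.H166Q (K4 HT nxt OArcW DArcW)
open Vale.Agent.P167.H685.Q.Det (ArcW Wn arc_win al be mem_An mem_Aq bank_near tip_strand cf_self)
open Vale.Agent.P167.N.H166Q (Far TL DET fe)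
open Relation

variable {S : St} {x y y1 n ρ r R l l' K3 K Λ : ℤ} {b : Bool} {ω ξ : Cfg} {s : Pt} {e : Ed}

/-- **the gate arc and the arm of colour `b`** -/
theorem arms (hn : 1 ≤ n) (hx : |y - x| ≤ 2 * n) (hK3 : 0 ≤ K3)
    (hr : (K3 + 8) * n ≤ r) (hrR : r ≤ R) (hRK : R + 3 * n ≤ K * n)
    (hbank : ∀ s : Pt, (∃ i ≤ S.m, bk b (st S.e0 S.z i) = s) → s ∈ Wn y R →
      4 * n ≤ s.2 ∧ PConn (cs b ξ ∩ ↑(hbF x (K * n)) ∩ {v | 4 * n ≤ v.2}) Set.univ (bk b e) s)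
    (hA : ArcW b S y r R ξ) (hH : Far b S K3 K x y n R ξ) :
    (∃ p : Pt, p.2 = 0 ∧ al b y r R ≤ p.1 ∧ p.1 ≤ be b y r R ∧
      PConn (cs b ξ ∩ ↑(Aq K3 K x n)) Set.univ (bk b e) p) ∧
    ∃ t : Pt, t.1 = fe b x n K ∧
      PConn (cs b ξ ∩ ↑((Aq K3 K x n ∪ N.H166Q.Tb b K x n).filter fun v => n ≤ v.2)) Set.univ
        (bk b e) t := by
  have hx' := abs_le.1 hx
  have hKn : 0 ≤ K * n := by nlinarith
  have hK3n : 0 ≤ K3 * n := by positivity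
  have h8 : (K3 + 8) * n = K3 * n + 8 * n := by ring
  have hAnAq : ∀ v : Pt, v ∈ An y r R → v ∈ Aq K3 K x n := by
    intro v hv
    obtain ⟨⟨a1, a2, a3, a4⟩, a5⟩ := mem_An.1 hv
    refine mem_Aq.2 ⟨⟨by omega, by omega, a3, by omega⟩, fun h6 => a5 ?_⟩
    exact ⟨by omega, by omega, a3, by omega⟩
  have hstr : ∀ v : Pt, v ∈ hbF x (K * n) → 4 * n ≤ v.2 → v ∈ Aq K3 K x n := by
    intro v hv h1
    obtain ⟨a1, a2, a3, a4⟩ := mem_hbF.1 hv
    exact mem_Aq.2 ⟨⟨a1, a2, a3, a4⟩, fun h6 => by omega⟩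
  constructor
  · obtain ⟨s, p, hsb, hp, hp1, hp2, hP⟩ := hA
    have hP' := arc_win (r := r) (R := R) (by omega) (by omega) hp hp1 hp2 hP
    obtain ⟨hs4, hsp⟩ := hbank s hsb hP'.left_mem
    refine ⟨p, hp, hp1, hp2, ?_⟩
    refine (hsp.mono ?_ subset_rfl).trans (hP.mono ?_ subset_rfl)
    · rintro v ⟨⟨hv1, hv2⟩, hv3⟩
      exact ⟨hv1, Finset.mem_coe.2 (hstr v (Finset.mem_coe.1 hv2) hv3)⟩
    · rintro v ⟨hv1, hv2⟩
      exact ⟨hv1, Finset.mem_coe.2 (hAnAq v (Finset.mem_inter.1 (Finset.mem_coe.1 hv2)).2)⟩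
  · obtain ⟨s, t, hsb, hsW, ht, hP⟩ := hH
    obtain ⟨hs4, hsp⟩ := hbank s hsb hsW
    refine ⟨t, ht, (hsp.mono ?_ subset_rfl).trans hP⟩
    rintro v ⟨⟨hv1, hv2⟩, hv3⟩
    have hv3' : 4 * n ≤ v.2 := hv3
    exact ⟨hv1, Finset.mem_coe.2 (Finset.mem_filter.2 ⟨Finset.mem_union_left _
      (hstr v (Finset.mem_coe.1 hv2) hv3), by omega⟩)⟩

/-- **the gate** -/
theorem gate (hK3 : 16 ≤ K3) (hΛ : 2 ≤ Λ) (hK : 20 * K4 Λ K3 + 20 ≤ K) (hn : 1 ≤ n)
    (h1 : |y1 - x| ≤ n) (h2 : |y - y1| ≤ n) (hρ : 4 * (K * n) ≤ ρ) (hT : TC S (K4 Λ K3 * n) y1 ρ)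
    (hω : ∀ v, v ∉ S.F → ω v = S.z v) (hH : HT S (K4 Λ K3 * n) y1 ρ n y ω)
    (hT' : TC (nxt S y1 ρ n ω) n y (ρ - n))
    (hξ : ∀ v, v ∉ (nxt S y1 ρ n ω).F → ξ v = (nxt S y1 ρ n ω).z v)
    (hL : TL (nxt S y1 ρ n ω) K3 K Λ x y n ξ) :
    Gt K3 K x n ξ (Sum.inr (y, 4 * n - 1)) ∧ ArE K3 K x n ξ (Sum.inr (y, 4 * n - 1)) ∧
      ArW K3 K x n ξ (Sum.inr (y, 4 * n - 1)) := by
  obtain ⟨⟨s, p, ls1, lp, l1, l2, lc⟩, ⟨s', p', rs1, rp, r1, r2, rc⟩, he, hw, -⟩ := hL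
  have h1' := abs_le.1 h1
  have h2' := abs_le.1 h2
  have hyx : |y - x| ≤ 2 * n := abs_le.2 ⟨by omega, by omega⟩
  -- the radii
  obtain ⟨a, ha⟩ : ∃ a, a = (K3 + 8) * n := ⟨_, rfl⟩
  have ha1 : 24 * n ≤ a := by
    rw [ha]
    nlinarith
  have hab : a ≤ Λ * a := by nlinarith
  have hbc : Λ * a ≤ Λ * (Λ * a) := by nlinarith
  have hc4 : Λ * (Λ * a) = K4 Λ K3 * n := by
    rw [ha]
    unfold K4
    ring
  have hKn : 20 * (K4 Λ K3 * n) + 20 * n ≤ K * n := by nlinarith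
  have hKl : n ≤ K * n := by omega
  have hnear : ∀ (b : Bool) (R : ℤ), R ≤ K4 Λ K3 * n → ∀ s : Pt,
      (∃ i ≤ (nxt S y1 ρ n ω).m, bk b (st (nxt S y1 ρ n ω).e0 (nxt S y1 ρ n ω).z i) = s) →
      s ∈ Wn y R → 4 * n ≤ s.2 ∧
        PConn (cs b ξ ∩ ↑(hbF x (K * n)) ∩ {v | 4 * n ≤ v.2}) Set.univ
          (bk b (Sum.inr (y, 4 * n - 1))) s := fun b R hR =>
    bank_near hT hn (by omega) hω hH hξ h1 h2 hR (by omega) (by omega)
  rw [← ha] at he hw l1 l2 lc r1 r2 rc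
  obtain ⟨⟨p1, e1, e2, e3, e4⟩, t1, f1, f2⟩ := arms (b := true) (x := x) (K := K) (K3 := K3)
    (r := a) (R := Λ * (Λ * a)) (e := Sum.inr (y, 4 * n - 1)) (ξ := ξ) hn hyx (by omega) ha.ge
    (by omega) (by omega) (hnear true _ (by omega)) ⟨s, p, ls1, lp, by
      simp only [al, if_true]
      omega, by
      simp only [be, if_true]
      omega, lc⟩ he
  obtain ⟨⟨p2, g1, g2, g3, g4⟩, t2, k1, k2⟩ := arms (b := false) (x := x) (K := K) (K3 := K3)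
    (r := a) (R := Λ * (Λ * a)) (e := Sum.inr (y, 4 * n - 1)) (ξ := ξ) hn hyx (by omega)
    ha.ge (by omega) (by omega) (hnear false _ (by omega)) ⟨s', p', rs1, rp, by
      simp only [al, Bool.false_eq_true, if_false]
      omega, by
      simp only [be, Bool.false_eq_true, if_false]
      omega, by
      rw [← opc]
      exact rc⟩ hw
  simp only [al, be, if_true, Bool.false_eq_true, if_false] at e2 e3 g2 g3
  refine ⟨⟨⟨y, rfl, ?_, by omega⟩, ⟨p1, e1, by omega, e4⟩, ⟨p2, g1, by omega, ?_⟩⟩,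
    ⟨t1, ?_, f2⟩, ⟨t2, ?_, ?_⟩⟩
  · have := hT'.ev
    rw [Int.even_iff] at this
    rw [Int.odd_iff]
    omega
  · unfold Dc
    rw [opc]
    exact g4
  · rw [f1]
    simp only [fe, if_true]
    exact le_rfl
  · rw [k1]
    simp only [fe, Bool.false_eq_true, if_false]
    omega
  · unfold Dc
    rw [opc]
    exact k2

/-- **the strand comes down to the low zone near the tip** -/
theorem ctr_tc (hn : 1 ≤ n) (h16 : 16 ≤ K3) (hK : K3 + 8 ≤ K) (hl : 1 ≤ l') (hl4 : 4 * l' ≤ n)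
    (hx : |y - x| ≤ 2 * n) (hρ : 3 * (K * n) ≤ ρ) (hS : TC S n y ρ)
    (hξ : ∀ v, v ∉ S.F → ξ v = S.z v) (hG : Gt K3 K x n ξ (Sum.inr (y, 4 * n - 1)))
    (hV : OArcW S y (4 * n - 1) ((K3 - 4) * n) ξ ∧ DArcW S y (4 * n - 1) ((K3 - 4) * n) ξ) :
    Ctr K3 K x n l' ξ (Sum.inr (y, 4 * n - 1)) := by
  have hx' := abs_le.1 hx
  have e1 : (K3 - 4) * n = K3 * n - 4 * n := by ring
  have e2 : K3 * n + 8 * n ≤ K * n := by nlinarith
  have e3 : 16 * n ≤ K3 * n := by nlinarith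
  have hm := tip_strand hξ
  have htip : st S.e0 ξ S.m = Sum.inr (y, 4 * n - 1) := (hm S.m le_rfl).trans hS.tip
  have hev : hdv (Sum.inr (y, 4 * n - 1)) = (y, 4 * n - 1) := by simp [hdv, hS.ev]
  have hdt : hdv S.tip = (y, 4 * n - 1) := by rw [hS.tip]; exact hev
  -- the strand is confined
  obtain ⟨c1, ⟨y', c2, c3⟩, c4⟩ := N.H685.Q.conf (S1 := S) (u := y) (w := ρ) (h := 4 * n) (b := y)
    (r0 := 4 * n - 1) (R := (K3 - 4) * n) (ξ := ξ) hS.toOk (by omega) (by omega)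
    (hS.gq.mono (by omega) (by omega))
    (fun v hv => hS.flat'.mem v ⟨by have := hv.1; omega, by have := hv.2.1; omega, hv.2.2.1, by
      have := hv.2.2.2; omega⟩)
    (fun a h1 h2 => hS.flat'.not a (by omega) (by omega))
    (by rw [hdt]; exact ⟨by dsimp only; omega, by dsimp only; omega, by dsimp only; omega,
      by dsimp only; omega⟩)
    (fun v hv => hS.fresh v hv) (fun a h1 h2 => hS.flat.not a (by omega) (by omega)) hξ hV
  have c2' := abs_le.1 c2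
  set N := ex S.D S.e0 ξ with hN
  -- the strand does not leave the half box before it lands
  have hin : ∀ v ∈ hbF x (K * n), v ∈ S.D := fun v hv => by
    obtain ⟨a1, a2, a3, a4⟩ := mem_hbF.1 hv
    exact hS.flat'.mem v ⟨by omega, by omega, a3, by omega⟩
  obtain ⟨⟨p, p1, p2, p3, p4, p5⟩, ⟨p', q1, q2, q3, q4, q5⟩⟩ := H318.UQ.gt_feet hn hG
  have hAqI : Aq K3 K x n ⊆ hbF x (K * n) := by
    unfold Aq
    exact Finset.sdiff_subset
  have hOD : ∀ {F : Set Pt} {s t : Pt}, PConn (F ∩ ↑(Aq K3 K x n)) Set.univ s t →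
      PConn (F ∩ ↑(hbF x (K * n))) Set.univ s t := fun {F s t} h => by
    refine h.mono ?_ subset_rfl
    rintro v ⟨hv1, hv2⟩
    exact ⟨hv1, Finset.mem_coe.2 (hAqI (Finset.mem_coe.1 hv2))⟩
  obtain ⟨y'', d1, d2, d3, d4, d5⟩ := H318.UQ.land (x := x) (r := K * n) (e0 := S.e0) (ξ := ξ)
    (i := S.m) (p := p) (p' := p') (fun h => hS.st (hin _ h)) (by
      rw [htip, hev, mem_hbF]
      exact ⟨by dsimp only; omega, by dsimp only; omega, by dsimp only; omega,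
        by dsimp only; omega⟩) p1 (by omega) q1 (by omega) (by omega)
    (by rw [htip]; exact hOD p5) (by rw [htip]; exact hOD q5)
  rw [htip] at d1 d5
  set N' := ex (hbF x (K * n)) (Sum.inr (y, 4 * n - 1)) ξ with hN'
  have hadd : ∀ k, st (Sum.inr (y, 4 * n - 1)) ξ k = st S.e0 ξ (S.m + k) := by
    intro k
    rw [H318.Bs.st_add, htip]
  have hNN : N = S.m + N' := by
    refine H318.Bs.hit_eq_of (Or.inr ?_) fun i hi => ⟨Set.notMem_empty _, ?_⟩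
    · rw [← hadd, d1, d4]
      exact hS.flat'.not y'' (by omega) (by omega)
    · rcases Nat.lt_or_ge i S.m with h | h
      · rw [hm i h.le]
        exact (H318.Bs.hit_min h).2
      · have h2 := d5 (i - S.m) (by omega)
        rw [hadd, Nat.add_sub_cancel' h] at h2
        exact hin _ h2
  have hN1 : 1 ≤ N' := by omega
  -- the last square is at height `0`
  have hlast : (hdv (st S.e0 ξ (N - 1))).2 = 0 := by
    have h1 : hdv (st S.e0 ξ (N - 1)) ∈ hbF x (K * n) := by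
      have h2 := d5 (N' - 1) (by omega)
      rw [hadd] at h2
      rwa [show S.m + (N' - 1) = N - 1 by omega] at h2
    obtain ⟨a1, a2, a3, a4⟩ := mem_hbF.1 h1
    have h3 := H318.hdv_nx ξ (st S.e0 ξ (N - 1))
    have h4 : nx ξ (st S.e0 ξ (N - 1)) = st S.e0 ξ N := by
      rw [← H318.Bs.st_succ]
      congr 1
      omega
    have h5 : hdv (st S.e0 ξ N) = (y'', -1) := by
      rw [hNN, ← hadd, d1, d4]
    rw [h4, h5] at h3
    dsimp only at h3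
    omega
  -- times from the tip
  have hle : hit (hbF x (K * n)) (Sum.inr (y, 4 * n - 1)) (Lo x (K * n) (4 * l')) ξ ≤ N' - 1 := by
    refine H318.Bs.hit_le (Or.inl ?_)
    have h2 := d5 (N' - 1) (by omega)
    rw [hadd] at h2 ⊢
    rw [show S.m + (N' - 1) = N - 1 by omega] at h2 ⊢
    obtain ⟨a1, a2, a3, a4⟩ := mem_hbF.1 h2
    exact ⟨by omega, by omega, a3, by omega⟩
  refine ⟨by omega, ?_⟩
  set j := hit (hbF x (K * n)) (Sum.inr (y, 4 * n - 1)) (Lo x (K * n) (4 * l')) ξ with hj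
  have hjL : hdv (st (Sum.inr (y, 4 * n - 1)) ξ j) ∈ Lo x (K * n) (4 * l') := by
    have h2 := Nat.sInf_mem (s := {k | hdv (st (Sum.inr (y, 4 * n - 1)) ξ k) ∈
        Lo x (K * n) (4 * l') ∨ hdv (st (Sum.inr (y, 4 * n - 1)) ξ k) ∉ hbF x (K * n)})
      ⟨N', Or.inr (by
        rw [d1, d4, mem_hbF]
        rintro ⟨-, -, h5, -⟩
        dsimp only at h5
        omega)⟩
    exact h2.resolve_right fun h3 => h3 (d5 j (by omega))
  have h6 := c4 (S.m + j) (by omega)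
  rw [← hadd] at h6
  obtain ⟨a1, a2, a3, a4⟩ := hjL
  have e4 : (K3 - 1) * n = K3 * n - n := by ring
  have h7 : ¬ ((hdv (st (Sum.inr (y, 4 * n - 1)) ξ j)).1 < y - (K3 - 4) * n ∨
      y + (K3 - 4) * n < (hdv (st (Sum.inr (y, 4 * n - 1)) ξ j)).1) := fun h8 =>
    h6 ⟨⟨by omega, by omega, a3, by omega⟩, h8⟩
  rw [abs_le]
  constructor <;> omega

/-- **(P5)** -/
theorem det : DET := by
  intro K3 K Λ hK3 hΛ hK S x y1 y ρ n l' ω ξ hn hl hl4 h1 h2 hρ hT hω hH hT' hξ hL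
  have h1' := abs_le.1 h1
  have h2' := abs_le.1 h2
  have hyx : |y - x| ≤ 2 * n := abs_le.2 ⟨by omega, by omega⟩
  obtain ⟨g1, g2, g3⟩ := gate hK3 hΛ hK hn h1 h2 hρ hT hω hH hT' hξ hL
  have hK4 : K3 + 8 ≤ K4 Λ K3 := by
    unfold K4
    nlinarith [mul_nonneg (show (0 : ℤ) ≤ Λ - 2 by omega) (show (0 : ℤ) ≤ K3 + 8 by omega)]
  have hKn : n ≤ K * n := by nlinarith
  exact ⟨g1, g2, g3, ctr_tc hn hK3 (by omega) hl hl4 hyx (by omega) hT' hξ g1 hL.2.2.2.2⟩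

end Vale.Agent.P167.N.H685.Q.Det
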