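import Vale.Agent.P167.N.H685.Q.RecA

/-!
# P167, the range `0 < q < 1`, block Q-NSYM: escapes of the intermediate state
-/

set_option autoImplicit false

namespace Vale.Agent.P167.N.H685.Q

open Finset Vale.Agent.P167 Vale.Agent.P167.FK Vale.Agent.P167.FKA Relation Filter Topology
open Vale.Agent.P167.H558 (StopSet Past)
open Vale.Agent.P167.H192 (ov ov_mem ov_notMem)
open Vale.Agent.P167.H318 (St TA TB Flat PO Lo HB J ex hit Visit CoConn Adj wt mem_RV RV_notMem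
  RV_path stopSet_RV past_X1 rv_cf rv_ok st_m RV_sub)
open Vale.Agent.P167.H365.NQ (SYMQ SymQE)
open Vale.Agent.P167.H632 (sq_inl)
open Vale.Agent.P167.H685.Q
open Vale.Agent.P167.H166Q (OArcW DArcW)

variable {Q : ℝ} {S : St} {ω ω' ξ : Cfg} {u w l' r : ℤ} {D : Finset (ℤ × ℤ)} {e : Ed} {k : ℕ}
  {ψ ψ' : ℤ → ℝ} {R : Cfg → Finset (ℤ × ℤ)}

/-- the arcs are missing -/
def NoArc (S : St) (b r R : ℤ) : Set Cfg := {ξ | ¬ (OArcW S b r R ξ ∧ DArcW S b r R ξ)}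

/-- **escape of the intermediate state** -/
theorem esc_int {C α : ℝ} (hE : EscA Q C α) (hS : S.Ok) {A : Set (ℤ × ℤ)} (hA : ∀ v ∈ A, v ∈ S.F)
    {b r0 R : ℤ} (h1 : 1 ≤ r0) (h2 : r0 ≤ R) (hG : Gq S b R) (hD : ∀ v ∈ HB b R, v ∈ S.D)
    (hn : ∀ x, b - R ≤ x → x ≤ b + R → (x, (-1 : ℤ)) ∉ S.D) (hP : PO S (HB b R))
    (hr : ∀ v ∈ HB b r0, v ∈ A) (ht : hdv (S.X1 A ω) ∈ HB b r0) :
    PQ Q (S.rv (S.RV A ω) ω) (NoArc (S.rv (S.RV A ω) ω) b r0 R) ≤ C * ((r0 : ℝ) / R) ^ α := by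
  obtain ⟨m1, m2, m3⟩ := rv_int hS hA ω
  exact hE (S.rv (S.RV A ω) ω) b r0 R h1 h2 (rv_ok hS _ ω) (gq_rv hG _ ω) hD hn
    (fun v hv => Finset.mem_sdiff.2 ⟨hA _ (hr v hv), fun h => RV_notMem h (hr v hv)⟩)
    (m3 _ hP) (by rw [m2]; exact ht)

/-- confinement of the intermediate state -/
theorem conf_int (hZ : Zone S u w l') {b r0 R : ℤ} (h1 : 1 ≤ r0) (h2 : r0 ≤ R) (hG : Gq S b R)
    (hD : ∀ v ∈ HB b R, v ∈ S.D) (hn : ∀ x, b - R ≤ x → x ≤ b + R → (x, (-1 : ℤ)) ∉ S.D)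
    (ht : hdv (S.X1 (Lo u w (4 * l')) ω) ∈ HB b r0)
    (hξ : Cs (S.rv (S.RV (Lo u w (4 * l')) ω) ω) ξ)
    (ha : ξ ∉ NoArc (S.rv (S.RV (Lo u w (4 * l')) ω) ω) b r0 R) :
    (∃ y, |y - b| ≤ R ∧ H318.st S.e0 ξ (ex S.D S.e0 ξ) = Sum.inr (y, -1)) ∧
      ∀ j < ex S.D S.e0 ξ, hdv (H318.st S.e0 ξ j) ∉ Zf u w (4 * l') b R := by
  obtain ⟨m1, m2, m3⟩ := rv_int hZ.toOk hZ.fr ω
  have ha' := not_not.1 ha
  obtain ⟨-, k2, k3⟩ := conf (u := u) (w := w) (h := 4 * l')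
    (S1 := S.rv (S.RV (Lo u w (4 * l')) ω) ω) (rv_ok hZ.toOk _ ω) h1 h2 (gq_rv hG _ ω) hD hn
    (by rw [m2]; exact ht)
    (fun v hv => Finset.mem_sdiff.2 ⟨hZ.fr v hv, fun h => RV_notMem h hv⟩)
    (fun x a1 a2 => hZ.flat.not x a1 a2) hξ ha'
  exact ⟨k2, k3⟩

/-- **the far part of the observable** -/
theorem far_int (hQ : 0 < Q) {Ce α Cs' : ℝ} {B : ℤ} (hCe : 0 < Ce) (hB : 1 ≤ B) (hE : EscA Q Ce α)
    (hM : SmB Q Cs' B) (hZ : Zone S u w l') (hk : 1 ≤ k) (hBk : B * k ≤ 4 * l') {b r0 R : ℤ}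
    (h1 : 1 ≤ r0) (h2 : r0 ≤ R) (hb : |b - u| + R ≤ w)
    (hr : ∀ v ∈ HB b r0, v ∈ Lo u w (4 * l'))
    (hψ : ∀ x, |ψ x| ≤ 1) (hs : ∀ x, ψ x ≠ 0 → u - w + B * k ≤ x ∧ x ≤ u + w - B * k)
    (hoff : ∀ x, b - R ≤ x → x ≤ b + R + 1 → ψ x = 0) (hω : Cs S ω)
    (ht : hdv (S.X1 (Lo u w (4 * l')) ω) ∈ HB b r0) :
    EQ Q (S.rv (S.RV (Lo u w (4 * l')) ω) ω) (fun ξ => |J S.D S.e0 ψ k ξ|) ≤
      (Cs' + 1) / 2 * k * Real.sqrt (Ce * ((r0 : ℝ) / R) ^ α) := by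
  have hkB : (k : ℤ) ≤ B * k := by nlinarith
  have hk1 : (1 : ℤ) ≤ k := by exact_mod_cast hk
  obtain ⟨g1, g2, g3, g4⟩ := hZ.hb hb
  set A := Lo u w (4 * l') with hA
  set S' := S.rv (S.RV A ω) ω with hS'
  have hesc := esc_int (Q := Q) hE hZ.toOk hZ.fr h1 h2 g1 g2 g3 g4 hr ht
  rw [← hS'] at hesc
  have hsm := hM S' u w (4 * l') k ψ hk hBk (hZ.ta ω) (gq_rv hZ.gq _ ω) hψ hs
  have hp : 0 < Ce * ((r0 : ℝ) / R) ^ α := by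
    have h3 : (0 : ℝ) < r0 := by exact_mod_cast (by omega : 0 < r0)
    have h4 : (0 : ℝ) < R := by exact_mod_cast (by omega : 0 < R)
    positivity
  have hcs := cs_bound hQ S' (X := fun ξ => J S.D S.e0 ψ k ξ) (κ := (k : ℝ))
    (by exact_mod_cast hk) hp hsm hesc
  refine le_trans (EQ_mono hQ fun ξ hξ => ?_) hcs
  by_cases hV : ξ ∈ NoArc S' b r0 R
  · rw [Set.indicator_of_mem hV]
    simp
  · obtain ⟨-, k3⟩ := conf_int hZ h1 h2 g1 g2 g3 ht hξ hV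
    have h0 : J S.D S.e0 ψ k ξ = 0 := by
      refine J_off (h := 4 * l') (u := u) (w := w) k3 (by omega) (fun x hx => ?_) hoff
      have h3 := hs x hx
      exact ⟨by omega, by omega⟩
    have h3 : |J S.D S.e0 ψ k ξ| = 0 := by rw [h0, abs_zero]
    rw [h3, zero_mul]

end Vale.Agent.P167.N.H685.Q
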